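import Crest.Agent.X212.One97.Stab
import Crest.Agent.X212.Wz78.Sy
import Crest.Agent.X212.Std94.Smo

/-!
# Row 212, CRIT-IM (helper23): parallel complex Clifford homomorphisms
-/

set_option autoImplicit false
set_option linter.unusedSectionVars false
noncomputable section
open scoped Manifold ContDiff Topology InnerProductSpace
open Set Function Filter

namespace Crest.Agent.X212.Im23
open An Pj41 Std94
open Wz78 (nab nabE nabH SA nabH_comp nabH_add nabH_const)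

variable {E : Type} [NormedAddCommGroup E] [NormedSpace ℝ E] [FiniteDimensional ℝ E]
  [MeasurableSpace E] [BorelSpace E]
  {HM : Type} [TopologicalSpace HM] {I : ModelWithCorners ℝ E HM} [I.Boundaryless]
  {M : Type} [TopologicalSpace M] [ChartedSpace HM M] [IsManifold I ∞ M]
  [MeasurableSpace M] [T2Space M] [BorelSpace M] [SecondCountableTopology M]
  {ι : Type} [Fintype ι] {lam : Type} [Fintype lam] {r : ℕ}
  {B : Base M ι lam} {G : Geo I M ι lam} {c c' : Cfg M ι lam r}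

theorem sum_skew {L X : Type} [NormedAddCommGroup L] [InnerProductSpace ℝ L] [AddCommGroup X]
    [Module ℝ X] {K : Type} [Fintype K] (b : OrthonormalBasis K ℝ L) {a : L → L}
    (ha : ∀ v w, ⟪a v, w⟫_ℝ = -⟪v, a w⟫_ℝ) (β : L →ₗ[ℝ] L →ₗ[ℝ] X) :
    ∑ i, (β (a (b i)) (b i) + β (b i) (a (b i))) = 0 := by
  have e : ∀ i, a (b i) = ∑ k, ⟪b k, a (b i)⟫_ℝ • b k := fun i => (b.sum_repr' _).symm
  rw [Finset.sum_add_distrib, Finset.sum_congr rfl fun i _ => congrArg (β · (b i)) (e i),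
    Finset.sum_congr rfl fun i _ => congrArg (β (b i)) (e i)]
  simp only [map_sum, map_smul, LinearMap.sum_apply, LinearMap.smul_apply]
  rw [Finset.sum_comm, ← Finset.sum_add_distrib]
  refine Finset.sum_eq_zero fun i _ => ?_
  rw [← Finset.sum_add_distrib]
  exact Finset.sum_eq_zero fun k _ => by
    rw [← add_smul, real_inner_comm (a (b i)), ha, add_neg_cancel, zero_smul]

section nab
variable {V W : Type} [NormedAddCommGroup V] [InnerProductSpace ℝ V] [NormedAddCommGroup W]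
  [InnerProductSpace ℝ W] {e : ι → (x : M) → TangentSpace I x} {A : ι → M → V →L[ℝ] V}
  {A' : ι → M → W →L[ℝ] W} {x : M}

theorem nabH_smul (a : ι) (t : ℝ) {T : M → V →L[ℝ] W} (hT : SA I T x) :
    nabH I e A A' a (fun y => t • T y) x = t • nabH I e A A' a T x := by
  rw [nabH, nabH, show Sob92.dv I (e a) (fun y => t • T y) x = _ from Sob92.dv_const_smul t hT.md]
  simp [smul_sub]

theorem nabH_sum (a : ι) {K : Type} (s : Finset K) {T : K → M → V →L[ℝ] W}
    (hT : ∀ i, SA I (T i) x) :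
    nabH I e A A' a (fun y => ∑ i ∈ s, T i y) x = ∑ i ∈ s, nabH I e A A' a (T i) x := by
  simp only [nabH, Sob92.dv_sum s fun i _ => (hT i).md, Finset.sum_add_distrib,
    Finset.sum_sub_distrib, ContinuousLinearMap.comp_finsetSum, ContinuousLinearMap.finsetSum_comp]

theorem cst (t : ℝ) (x : M) : SA I (fun _ : M => t) x := contMDiffAt_const

theorem avg {L : Type} [NormedAddCommGroup L] [InnerProductSpace ℝ L] [FiniteDimensional ℝ L]
    [FiniteDimensional ℝ V] [FiniteDimensional ℝ W] (a : ι) {j : M → L →L[ℝ] V →L[ℝ] V}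
    {j' : M → L →L[ℝ] W →L[ℝ] W} {τ : M → V →L[ℝ] W} {g : L → L}
    (hg : ∀ v w, ⟪g v, w⟫_ℝ = -⟪v, g w⟫_ℝ) (hj : SA I j x) (hj' : SA I j' x) (hτ : SA I τ x) :
    SA I (fun y => jav (j y) (j' y) (τ y)) x ∧
    ((∀ s, nabH I e A A a (fun y => j y s) x = j x (g s)) →
    (∀ s, nabH I e A' A' a (fun y => j' y s) x = j' x (g s)) → nabH I e A A' a τ x = 0 →
    nabH I e A A' a (fun y => jav (j y) (j' y) (τ y)) x = 0) := by
  let b := stdOrthonormalBasis ℝ L
  let T : _ → M → V →L[ℝ] W := fun k y => j' y (b k) ∘L τ y ∘L j y (b k)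
  have sj : ∀ s, SA I (fun y => j y s) x := fun s => hj.app contMDiffAt_const
  have sj' : ∀ s, SA I (fun y => j' y s) x := fun s => hj'.app contMDiffAt_const
  have sT : ∀ k, SA I (T k) x := fun k => (sj' _).hcomp (hτ.hcomp (sj _))
  have sS : SA I (fun y => ∑ k, T k y) x := SA.sum _ fun k _ => sT k
  rw [show (fun y => jav (j y) (j' y) (τ y)) =
    fun y => (1 / 2 : ℝ) • τ y + (1 / 4 : ℝ) • ∑ k, T k y from funext fun y => by
      simp [jav, cj_eq, T, b]]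
  refine ⟨((cst _ x).smul hτ).add ((cst _ x).smul sS), fun n n' p => ?_⟩
  rw [nabH_add a ((cst _ x).smul hτ) ((cst _ x).smul sS), nabH_smul a _ hτ,
    nabH_smul a _ sS, nabH_sum a _ sT, p, smul_zero, zero_add]
  refine smul_eq_zero_of_right _ (Eq.trans (Finset.sum_congr rfl fun k _ => ?_)
    (sum_skew b hg (LinearMap.mk₂ ℝ (fun s t => j' x s ∘L τ x ∘L j x t)
      (by simp) (by simp) (by simp) (by simp))))
  rw [nabH_comp (A' := A') a (sj' _) (hτ.hcomp (sj _)), nabH_comp (A' := A) a hτ (sj _), n, n', p,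
    ContinuousLinearMap.zero_comp, zero_add]
  rfl

end nab

variable (G c c') in
/-- parallel complex Clifford homomorphisms -/
structure Iw (τ : M → CL c.m.V c'.m.V) : Prop where
  sm : Sm I τ
  par : ∀ a x, nabH I G.F.e c.W c'.W a τ x = 0
  pl : ∀ x v, c'.m.p x (τ x v) = τ x v
  pr : ∀ x v, τ x (c.m.p x v) = τ x v
  ρ : ∀ x a v, τ x (c.m.ρ a x v) = c'.m.ρ a x (τ x v)
  J : ∀ x v, τ x (c.m.J v) = c'.m.J (τ x v)

variable {τ : M → CL c.m.V c'.m.V} (hB : B.OK I) (hG : G.OK B) (h : c.Adm B G) (h' : c'.Adm B G)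

theorem ap {V W : Type} [NormedAddCommGroup V] [NormedSpace ℝ V] [NormedAddCommGroup W]
    [NormedSpace ℝ W] {S T : V →L[ℝ] W} (e : S = T) (v : V) : S v = T v := by rw [e]

theorem split_pt {m m' : Md M ι lam} {x : M} (hB : B.OK I) (H : PMx B m x) (H' : PMx B m' x)
    {A : CL m.V m'.V} (pl : ∀ v, m'.p x (A v) = A v) (pr : ∀ v, A (m.p x v) = A v)
    (ρ : ∀ a v, A (m.ρ a x v) = m'.ρ a x (A v)) (J : ∀ v, A (m.J v) = m'.J (A v))
    {A₁ : CL m.V m'.V} (h1 : ∀ v, A₁ v = jav (m.j x) (m'.j x) A v) :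
    Itx m m' x A₁ ∧ Itx m m' x (-m'.J ∘L (A + (-1 : ℝ) • A₁)) := by
  obtain ⟨U, s, f⟩ := exists_bx hB x
  have JJ : ∀ v, m'.J (m'.J v) = -v := ap H'.Jsq
  have e : ∀ v, A₁ v = (1 / 2 : ℝ) • (A v + m'.j x s (A (m.j x s v))) := fun v => by
    rw [h1, jav_frame H H' f.lf J]
  have kk : ∀ v, m.j x s (m.j x s v) = m.p x v := (H.q4 f.of.toON f.lf).kk
  have kk' : ∀ v, m'.j x s (m'.j x s v) = m'.p x v := (H'.q4 f.of.toON f.lf).kk
  have kp : ∀ v, m.j x s (m.p x v) = m.j x s v := ap (j_p H s)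
  have pk : ∀ v, m'.p x (m'.j x s v) = m'.j x s v := ap (H'.pj s)
  have pJ : ∀ v, m'.p x (m'.J v) = m'.J (m'.p x v) := ap H'.Jp.symm
  have kρ : ∀ a v, m.j x s (m.ρ a x v) = m.ρ a x (m.j x s v) := fun a => ap (H.jρ a s)
  have kρ' : ∀ a v, m'.ρ a x (m'.j x s v) = m'.j x s (m'.ρ a x v) := fun a => ap (H'.jρ a s).symm
  have Jρ : ∀ a v, m'.ρ a x (m'.J v) = m'.J (m'.ρ a x v) := fun a => ap (H'.Jρ a).symm
  have kJ : ∀ v, m.j x s (m.J v) = -m.J (m.j x s v) := ap (H.jJ s)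
  have kJ' : ∀ v, m'.j x s (m'.J v) = -m'.J (m'.j x s v) := ap (H'.jJ s)
  have je : ∀ t v, m.j x t v = ⟪s, t⟫_ℝ • m.j x s v + ⟪B.il s, t⟫_ℝ • m.J (m.j x s v) :=
    fun t => ap (H.j_eq f.lf t)
  have je' : ∀ t v, m'.j x t v = ⟪s, t⟫_ℝ • m'.j x s v + ⟪B.il s, t⟫_ℝ • m'.J (m'.j x s v) :=
    fun t => ap (H'.j_eq f.lf t)
  generalize m.j x s = k at *
  generalize m'.j x s = k' at *
  refine ⟨⟨fun v => ?_, fun v => ?_, fun a v => ?_, fun v => ?_, fun t v => ?_⟩,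
    fun v => ?_, fun v => ?_, fun a v => ?_, fun v => ?_, fun t v => ?_⟩ <;>
  · try rw [je t, je' t]
    simp only [neg_apply, ContinuousLinearMap.comp_apply, add_apply, smul_apply, e, map_add,
      map_smul, map_neg, pl, pr, ρ, J, kk, kk', kp, pk, pJ, kρ, kρ', Jρ, kJ, kJ', JJ]
    try module

include h in
theorem nj (s : Eu lam) (a : ι) (x : M) :
    nabH I G.F.e c.W c.W a (fun y => c.m.j y s) x = c.m.j x (G.a a x s) :=
  (Wz78.nabE_j h.conn h.ok a (σ := fun _ => s) contMDiffAt_const).trans (by simp [nab])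

include hB hG h h' in
/-- `τ = τ₁ + J τ₂` with parallel intertwiners -/
theorem Iw.split (i : Iw G c c' τ) : ∃ τ₁ τ₂ : M → CL c.m.V c'.m.V,
    (Sm I τ₁ ∧ (∀ a x, nabH I G.F.e c.W c'.W a τ₁ x = 0) ∧ ∀ x, Itx c.m c'.m x (τ₁ x)) ∧
    (Sm I τ₂ ∧ (∀ a x, nabH I G.F.e c.W c'.W a τ₂ x = 0) ∧ ∀ x, Itx c.m c'.m x (τ₂ x)) ∧
    ∀ x v, τ x v = τ₁ x v + c'.m.J (τ₂ x v) := by
  obtain ⟨τ₁, e1⟩ : ∃ τ₁ : M → CL c.m.V c'.m.V, τ₁ = fun x => jav (c.m.j x) (c'.m.j x) (τ x) :=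
    ⟨_, rfl⟩
  have k := fun a x => avg (e := G.F.e) (A := c.W) (A' := c'.W) a (hG.sk a x) (h.ok.sj x)
    (h'.ok.sj x) (i.sm x)
  have s1 : Sm I τ₁ := fun x => e1 ▸ (avg (e := fun _ : Unit => 0) (A := 0) (A' := 0) (g := 0) ()
    (by simp) (h.ok.sj x) (h'.ok.sj x) (i.sm x)).1
  have p1 : ∀ a x, nabH I G.F.e c.W c'.W a τ₁ x = 0 := fun a x =>
    e1 ▸ (k a x).2 (nj h · a x) (nj h' · a x) (i.par a x)
  have JJ : ∀ v, c'.m.J (c'.m.J v) = -v := ap h'.ok.Jsq
  have key := fun x => split_pt hB (pmx h.ok x) (pmx h'.ok x) (i.pl x) (i.pr x) (i.ρ x) (i.J x)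
    (A₁ := τ₁ x) fun v => by rw [e1]
  have s2 : ∀ x, SA I (fun x => τ x + (-1 : ℝ) • τ₁ x) x :=
    fun x => (i.sm x).add ((cst _ x).smul (s1 x))
  refine ⟨τ₁, fun x => -c'.m.J ∘L (τ x + (-1 : ℝ) • τ₁ x), ⟨s1, p1, fun x => (key x).1⟩,
    ⟨fun x => SA.hcomp (S := fun _ => -c'.m.J) contMDiffAt_const (s2 x), fun a x => ?_,
      fun x => (key x).2⟩, fun x v => by simp [JJ]⟩
  refine (nabH_comp (A' := c'.W) (S := fun _ => -c'.m.J) a contMDiffAt_const (s2 x)).trans ?_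
  rw [nabH_add a (i.sm x) ((cst _ x).smul (s1 x)), nabH_smul a _ (s1 x), i.par, p1,
    nabH_const a _ fun v => by
      rw [neg_apply, neg_apply, map_neg]; exact congrArg _ (ap (h'.conn.J a x) v).symm]
  simp

variable [ConnectedSpace M]

theorem par0 (hp : ∀ a x, nabH I G.F.e c.W c'.W a τ x = 0) : Par0 G.F c.W c'.W univ τ :=
  fun x _ a => (add_sub_assoc _ _ _).trans (hp a x)

include h in
theorem eq_smul {T : M → En (Fin c.m.N)} (hs : Sm I T) (hp : Par0 G.F c.W c.W univ T) {t : ℝ}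
    {y : M} (h0 : T y = t • c.m.p y) (x : M) : T x = t • c.m.p x := by
  have sp : ∀ x, SA I (fun x => t • c.m.p x) x := fun x =>
    (show SA I (fun _ => t) x from contMDiffAt_const).smul (h.ok.sp x)
  refine sub_eq_zero.1 (One97.par_zero (F := G.F) (W := c.W) (T := fun x => T x - t • c.m.p x)
    isOpen_univ isPreconnected_univ (fun a x _ => h.conn.sk a x) (fun x _ => (hs x).sub (sp x))
    (fun a x _ => ?_) (mem_univ y) (sub_eq_zero.2 h0) x trivial)
  rw [Wz78.nabE_sub a (hs x) (sp x), Wz78.nabE_smul a contMDiffAt_const (h.ok.sp x),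
    show nabE I G.F.e c.W a c.m.p x = 0 from h.conn.cc.par a x,
    show nabE I G.F.e c.W a T x = 0 from (add_sub_assoc _ _ _).symm.trans (hp x trivial a)]
  simp

include hB h h' in
/-- a parallel intertwiner is zero or a multiple of an isomorphism -/
theorem zero_or_iso (hs : Sm I τ) (hp : ∀ a x, nabH I G.F.e c.W c'.W a τ x = 0)
    (hi : ∀ x, Itx c.m c'.m x (τ x)) :
    τ = 0 ∨ ∃ u, Iso0 I c.m c'.m univ u ∧ Par0 G.F c.W c'.W univ u := by
  obtain ⟨y⟩ : Nonempty M := inferInstance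
  obtain ⟨n1, n2⟩ := itx_norm hB (pmx h.ok y) (pmx h'.ok y) (hi y)
  set t := Std94.hs (τ y) (τ y) / 16 with ht
  have p := par0 hp
  have p' := p.symm (fun x _ => hs x) (fun a x _ => h.conn.sk a x) fun a x _ => h'.conn.sk a x
  have sa : ∀ x, FSm I (fun y => ad (τ y)) x := fun x => FSm.ad (hs x)
  have e1 := eq_smul h (fun x => (sa x).cc (hs x)) (p.trans p' (fun x _ => hs x) fun x _ => sa x)
    (by rw [ad_trn]; exact n1)
  have e2 := eq_smul h' (fun x => FSm.cc (hs x) (sa x))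
    (p'.trans p (fun x _ => sa x) fun x _ => hs x) (by rw [ad_trn]; exact n2)
  have t0 : 0 ≤ t := by
    rw [ht, hs_eq_sum (stdOrthonormalBasis ℝ _)]
    exact div_nonneg (Finset.sum_nonneg fun _ _ => real_inner_self_nonneg) (by norm_num)
  rcases t0.eq_or_lt with t0 | t0
  · refine .inl (funext fun x => ContinuousLinearMap.ext fun v => (inner_self_eq_zero (𝕜 := ℝ)).1 ?_)
    rw [← inner_ad_left, ← ContinuousLinearMap.comp_apply, e1, ← t0]; simp
  have q : (√t)⁻¹ * (√t)⁻¹ * t = 1 := by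
    rw [← mul_inv, Real.mul_self_sqrt t0.le, inv_mul_cancel₀ t0.ne']
  refine .inr ⟨fun x => (√t)⁻¹ • τ x, ⟨fun x _ => SA.smul contMDiffAt_const (hs x),
    fun x _ => ⟨?_, ?_, ?_⟩, fun x _ => ?_, fun x _ b => ?_, fun x _ s => ?_⟩,
    par0 fun a x => by rw [nabH_smul a _ (hs x), hp, smul_zero]⟩
  · rw [ad_smul, ContinuousLinearMap.smul_comp, ContinuousLinearMap.comp_smul, e1, smul_smul,
      smul_smul, q, one_smul]
  · rw [ad_smul, ContinuousLinearMap.smul_comp, ContinuousLinearMap.comp_smul, e2, smul_smul,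
      smul_smul, q, one_smul]
  all_goals ext1 v; simp [(hi x).pr, (hi x).J, (hi x).ρ, (hi x).j]

include h in
/-- reducible connections have a parallel line -/
theorem lin_of_red (hR : Nd18.Red G.F c univ) : Nd18.Lin G.F c univ := by
  obtain ⟨ξ, p, y, -, h0⟩ := hR
  have s : ∀ x, SA I ξ x := fun x => contMDiffOn_univ.1 p.sm x
  obtain ⟨t, ht⟩ := Abel74.const_of_D (F := G.F) isOpen_univ isPreconnected_univ
    (fun x _ => SA.inner (s x) (s x)) fun a x hx => by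
      rw [Pre.D_def, Wz78.dv_inner (A := c.m.adW c.W) a (Wz78.adW_skw h.conn a x) (s x) (s x),
        p.par a x hx]
      simp
  have t0 : t ≠ 0 := ht y trivial ▸ inner_self_ne_zero.2 h0
  have n : ∀ x, ‖ξ x‖ ^ 2 = t := fun x => by rw [← ht x trivial, real_inner_self_eq_norm_sq]
  have sr : ∀ x, SA I (fun y => rk1 (ξ y) (ξ y)) x := fun x =>
    SA.app (SA.clm (ContinuousLinearMap.smulRightL ℝ c.m.A c.m.A) (SA.clm (innerSL ℝ) (s x))) (s x)
  refine ⟨fun x => t⁻¹ • rk1 (ξ x) (ξ x), fun x _ => (SA.smul contMDiffAt_const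
    (sr x)).contMDiffWithinAt, fun x hx => ⟨fun v w => ?_, ?_, ?_, ?_, fun a => ?_⟩⟩
  · simp [real_inner_smul_left, real_inner_smul_right, real_inner_comm v, mul_comm]
  · ext1 v; simp [n, smul_smul, t0, mul_comm _ t, mul_assoc]
  · ext1 v; simp [Wz78.pg_of_mem (p.mem x hx)]
  · rw [ContinuousLinearMap.toLinearMap_smul, map_smul]
    erw [LinearMap.trace_smulRight]
    simp [n, t0]
  · refine (Wz78.nabE_smul (A := c.m.adW c.W) a contMDiffAt_const (sr x)).trans ?_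
    have : nabE I G.F.e (c.m.adW c.W) a (fun y => rk1 (ξ y) (ξ y)) x = 0 := by
      ext1 w
      have hc : SA I (fun _ : M => w) x := contMDiffAt_const
      have := Wz78.nab_app' (e := G.F.e) (A := c.m.adW c.W) a (sr x) hc
      simp only [Wz78.rk1_apply] at this
      rw [Wz78.nab_smul a ((s x).inner hc) (s x),
        Wz78.dv_inner a (Wz78.adW_skw h.conn a x) (s x) hc, p.par a x hx] at this
      simpa using this
    simp [this]

include hB h in
theorem scal {τ : M → En (Fin c.m.N)} (hL : ¬Nd18.Lin G.F c univ) (hs : Sm I τ)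
    (hp : ∀ a x, nabH I G.F.e c.W c.W a τ x = 0) (hi : ∀ x, Itx c.m c.m x (τ x)) :
    ∃ t : ℝ, ∀ x, τ x = t • c.m.p x := by
  obtain ⟨y⟩ : Nonempty M := inferInstance
  choose t ξ h1 h2 using fun x => (itx_iff hB (pmx h.ok x) (τ x)).1 (hi x)
  have p' := (par0 hp).symm (fun x _ => hs x) (fun a x _ => h.conn.sk a x)
    fun a x _ => h.conn.sk a x
  have e : ∀ x, hsL (τ x - ad (τ x)) = (2 : ℝ) • ξ x := fun x => by
    rw [ad_trn, h2 x, trn_comm (pmx h.ok x) _ (h1 x), two_smul, ← Wz78.hsL_opL (ξ x), ← map_add,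
      Wz78.opL_hsL]
    congr 1; abel
  have sd : ∀ x, SA I (fun y => τ y - ad (τ y)) x := fun x => (hs x).sub (FSm.ad (hs x))
  have z : ξ y = 0 := by
    by_contra hz
    refine hL (lin_of_red h ⟨fun x => hsL (τ x - ad (τ x)),
      ⟨fun x _ => (SA.clm hsL (sd x)).contMDiffWithinAt,
        fun x _ => e x ▸ Submodule.smul_mem _ _ (h1 x), fun a x _ => ?_⟩, y, trivial,
      ne_of_eq_of_ne (e y) (smul_ne_zero two_ne_zero hz)⟩)
    rw [Wz78.hsL_nab a (sd x), Wz78.nabE_sub a (hs x) (FSm.ad (hs x)),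
      show nabE I G.F.e c.W a τ x = 0 from hp a x,
      show nabE I G.F.e c.W a (fun y => ad (τ y)) x = 0 from
        (add_sub_assoc _ _ _).symm.trans (p' x trivial a)]
    simp
  exact ⟨t y, eq_smul h hs (par0 hp) (y := y) (by simp [h2 y, z])⟩

include hB hG h in
/-- **Schur**: strongly irreducible connections -/
theorem Iw.self {τ : M → En (Fin c.m.N)} (i : Iw G c c τ) (hL : ¬Nd18.Lin G.F c univ) :
    ∃ s t : ℝ, ∀ x v, τ x v = s • c.m.p x v + t • c.m.J (c.m.p x v) := by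
  obtain ⟨τ₁, τ₂, ⟨a1, a2, a3⟩, ⟨b1, b2, b3⟩, e⟩ := i.split hB hG h h
  obtain ⟨s, hs⟩ := scal hB h hL a1 a2 a3
  obtain ⟨t, ht⟩ := scal hB h hL b1 b2 b3
  exact ⟨s, t, fun x v => by simp [e, hs, ht]⟩

include hB hG h h' in
/-- **Schur**: inequivalent connections -/
theorem Iw.zero (i : Iw G c c' τ) (h0 : ∀ x, c.Φ x = 0) (h0' : ∀ x, c'.Φ x = 0) (hz : c'.z = c.z)
    (hn : ¬Cfg.Iso B G.F c c') (x : M) : τ x = 0 := by
  obtain ⟨τ₁, τ₂, ⟨a1, a2, a3⟩, ⟨b1, b2, b3⟩, e⟩ := i.split hB hG h h'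
  have k : ¬∃ u, Iso0 I c.m c'.m univ u ∧ Par0 G.F c.W c'.W univ u := fun ⟨u, h1, h2⟩ =>
    hn ⟨u, 1, h1.mEq (OK.on h.ok _) (OK.on h'.ok _),
      (par0_iff ((IsConn.on h'.conn _).proj' hB)).1 h2, fun x _ => by simp [h0, h0', cs],
      by simpa using hz⟩
  ext1 v
  simp [e, (zero_or_iso hB h h' a1 a2 a3).resolve_right k,
    (zero_or_iso hB h h' b1 b2 b3).resolve_right k]

end Crest.Agent.X212.Im23
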