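import Crest.Agent.X212.Wrd81.Ap
import Crest.Agent.X212.Dgr80.Defs
import Crest.Agent.X212.Cht98.Rel

/-!
# Row 212, CRIT-IM (helper23): words as operators on `L²` of a closed manifold
-/

set_option autoImplicit false
set_option linter.unusedSectionVars false
noncomputable section
open scoped Manifold ContDiff Topology InnerProductSpace
open MeasureTheory Set Function Filter

namespace Crest.Agent.X212.Im23
open An Sob92 Dgr80
open Wrd81 (wd RH GH mem_tst)
open ContinuousLinearMap (adjoint)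

variable {E : Type} [NormedAddCommGroup E] [NormedSpace ℝ E] [FiniteDimensional ℝ E]
  [MeasurableSpace E] [BorelSpace E]
  {HM : Type} [TopologicalSpace HM] {I : ModelWithCorners ℝ E HM} [I.Boundaryless]
  {M : Type} [TopologicalSpace M] [ChartedSpace HM M] [IsManifold I ∞ M]
  [MeasurableSpace M] [T2Space M] [BorelSpace M] [SecondCountableTopology M] [CompactSpace M]
  {ι : Type} [Fintype ι]
  {U V W : Type} [NormedAddCommGroup U] [InnerProductSpace ℝ U] [NormedAddCommGroup V]
  [InnerProductSpace ℝ V] [NormedAddCommGroup W] [InnerProductSpace ℝ W]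

variable (M V) in
/-- `L²` -/
abbrev L2 (F : Fr I M ι) : Type := F.H 0 (triv M V)

/-- a smooth function in `L²` -/
def th (F : Fr I M ι) {u : M → V} (hu : Sm I u) : L2 M V F :=
  F.toH 0 _ ⟨u, mem_tst hu (.of_compactSpace _)⟩

variable {F : Fr I M ι} {p : M → V →L[ℝ] V} {q : M → W →L[ℝ] W} {u v : M → V}

theorem inner_th (hu : Sm I u) (hv : Sm I v) :
    ⟪th F hu, th F hv⟫_ℝ = ∫ x, ⟪u x, v x⟫_ℝ ∂F.μ := F.inner_toH 0 _ _ _

theorem th_congr (hu : Sm I u) (hv : Sm I v) (e : u = v) : th F hu = th F hv := by subst e; rfl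

theorem th_ext {X : Type} [NormedAddCommGroup X] [NormedSpace ℝ X] {A B : L2 M V F →L[ℝ] X}
    (h : ∀ u (hu : Sm I u), A (th F hu) = B (th F hu)) : A = B := Pre.clm_ext fun u => h u.1 u.2.1

theorem mul_toH {T : M → V →L[ℝ] W} (hT : Sm I T) (u : Sec I p) :
    F.mulH 0 p (triv M W) T (F.toH 0 p u) = th F (hT.clm_apply u.2.1) :=
  RepT_toH (rep_mulH (Cb_of_compact hT) (Maps.triv T)) u

theorem mul_th {T : M → V →L[ℝ] W} (hT : Sm I T) (hu : Sm I u) :
    F.mulH 0 _ (triv M W) T (th F hu) = th F (hT.clm_apply hu) := mul_toH hT _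

theorem mul_adj {T : M → V →L[ℝ] W} {T' : M → W →L[ℝ] V} (hT : Sm I T) (hT' : Sm I T')
    (hm : Maps p q T) (hm' : Maps q p T') {ε : ℝ}
    (h : ∀ z v w, p z v = v → q z w = w → ⟪T z v, w⟫_ℝ = ε * ⟪v, T' z w⟫_ℝ) (x : F.H 0 p)
    (y : F.H 0 q) : ⟪F.mulH 0 p q T x, y⟫_ℝ = ε * ⟪x, F.mulH 0 q p T' y⟫_ℝ := by
  refine H_eq₂ (f := fun x y => ⟪F.mulH 0 p q T x, y⟫_ℝ)
    (g := fun x y => ε * ⟪x, F.mulH 0 q p T' y⟫_ℝ) (by fun_prop) (by fun_prop) (fun u v => ?_) x y
  simp only [RepT_toH (rep_mulH (Cb_of_compact hT) hm), RepT_toH (rep_mulH (Cb_of_compact hT') hm'),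
    Pre.inner_toH, Pre.ip, ← integral_const_mul]
  exact integral_congr_ae (.of_forall fun z => h z _ _ (u.2.2.2 z) (v.2.2.2 z))

theorem cont_th {f : ℝ → M → V} (hf : ∀ t, Sm I (f t)) (hc : Continuous (uncurry f)) :
    ContinuousAt (fun t => th F (hf t)) 0 := by
  rw [ContinuousAt, tendsto_iff_norm_sub_tendsto_zero]
  have e : ∀ t, ‖th F (hf t) - th F (hf 0)‖ =
      √(∫ x in univ, ⟪f t x - f 0 x, f t x - f 0 x⟫_ℝ ∂F.μ) := fun t => by
    rw [Measure.restrict_univ, norm_eq_sqrt_real_inner, th, th, ← map_sub, Pre.inner_toH]; rfl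
  have := (continuous_parametric_integral_of_continuous (μ := F.μ)
    (f := fun t x => ⟪f t x - f 0 x, f t x - f 0 x⟫_ℝ) (by
      have : Continuous (f 0) := (hf 0).continuous
      have : Continuous fun z : ℝ × M => f z.1 z.2 := hc
      unfold uncurry; fun_prop) isCompact_univ).sqrt.tendsto 0
  simpa only [e, sub_self, inner_zero_left, integral_zero, Real.sqrt_zero] using this

variable [FiniteDimensional ℝ V] [FiniteDimensional ℝ W] [CompleteSpace V] [CompleteSpace W]
  {A : ι → M → V →L[ℝ] V} {A' : ι → M → W →L[ℝ] W}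

variable (F A) in
/-- the operator of a letter -/
def lo : SL M V → L2 M V F →L[ℝ] L2 M V F
  | .op T => F.mulH 0 _ _ T
  | .G => F.incl 2 0 _ ∘L GH F A 0

variable (F A) in
/-- the operator of a word -/
def wo (w : List (SL M V)) : L2 M V F →L[ℝ] L2 M V F := (w.map (lo F A)).prod

variable (I) in
/-- smooth letters -/
def SmL : SL M V → Prop
  | .op T => Sm I T
  | .G => True

theorem sm_adj {T : M → V →L[ℝ] W} (hT : Sm I T) : Sm I fun x => adjoint (T x) :=
  (adjoint (𝕜 := ℝ) (E := V) (F := W)).contDiff.contMDiff.comp hT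

theorem sm_sl {t : SL M V} (ht : SmL I t) (hu : Sm I u) : Sm I (sl F A t u) := by
  cases t with
  | op T => exact ht.clm_apply hu
  | G => exact Mp86.sm_res F A u

theorem sm_slT {t : SL M V} (ht : SmL I t) (hu : Sm I u) : Sm I (slT F A t u) := by
  cases t with
  | op T => exact (sm_adj ht).clm_apply hu
  | G => exact Mp86.sm_res F A u

theorem sm_wd (hu : Sm I u) : ∀ {w : List (SL M V)}, (∀ t ∈ w, SmL I t) → Sm I (wd (sl F A) u w)
  | [], _ => hu
  | t :: _, hw => sm_sl (hw t (by simp)) (sm_wd hu fun t ht => hw t (by simp [ht]))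

theorem sm_bk : ∀ {w : List (SL M V)} {u : M → V}, (∀ t ∈ w, SmL I t) → Sm I u → Sm I (bk F A w u)
  | [], _, _, hu => hu
  | t :: w, _, hw, hu => sm_bk (w := w) (fun t ht => hw t (by simp [ht]))
      (sm_slT (hw t (by simp)) hu)

section rh
variable (h : RH F A)
include h

theorem G_th (hu : Sm I u) : lo F A .G (th F hu) = th F (Mp86.sm_res F A u) :=
  (h.res_rp (h.rsd.inf_j h.mc.sm _) hu (h.rsd.rp_j ⟨u, mem_tst hu (.of_compactSpace _)⟩)).2.2.unique
    (h.rsd.rp_j ⟨_, mem_tst (Mp86.sm_res F A u) (.of_compactSpace _)⟩)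

theorem lo_th {t : SL M V} (ht : SmL I t) (hu : Sm I u) :
    lo F A t (th F hu) = th F (sm_sl (F := F) (A := A) ht hu) := by
  cases t with
  | op T => exact mul_th ht hu
  | G => exact G_th h hu

theorem wo_th (hu : Sm I u) : ∀ {w : List (SL M V)} (hw : ∀ t ∈ w, SmL I t),
    wo F A w (th F hu) = th F (sm_wd (F := F) (A := A) hu hw)
  | [], _ => rfl
  | t :: w, hw => (congrArg (lo F A t) (wo_th hu (w := w) fun t ht => hw t (by simp [ht]))).trans
      (lo_th h (hw t (by simp)) _)

theorem lo_adj {t : SL M V} (ht : SmL I t) (hu : Sm I u) (x : L2 M V F) :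
    ⟪lo F A t x, th F hu⟫_ℝ = ⟪x, th F (sm_slT (F := F) (A := A) ht hu)⟫_ℝ := by
  cases t with
  | op T =>
    refine (mul_adj (ε := 1) ht (sm_adj ht) (Maps.triv _) (Maps.triv _) (fun z v w _ _ => ?_) x
      _).trans (by rw [one_mul, mul_th (sm_adj ht)]; rfl)
    rw [one_mul, ContinuousLinearMap.adjoint_inner_right]
  | G => exact (h.rsd.symm _ _).trans (congrArg _ (G_th h hu))

theorem wo_adj : ∀ {w : List (SL M V)} {u : M → V} (hw : ∀ t ∈ w, SmL I t) (hu : Sm I u),
    adjoint (wo F A w) (th F hu) = th F (sm_bk (F := F) (A := A) hw hu)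
  | [], _, _, _ => ext_inner_left ℝ fun x => ContinuousLinearMap.adjoint_inner_right _ _ _
  | t :: w, _, hw, hu => ext_inner_left ℝ fun x => by
      rw [ContinuousLinearMap.adjoint_inner_right]
      exact (lo_adj h (hw t (by simp)) hu (wo F A w x)).trans
        ((ContinuousLinearMap.adjoint_inner_right _ _ _).symm.trans
          (congrArg _ (wo_adj (w := w) (fun t ht => hw t (by simp [ht])) _)))

theorem G_cpt : IsCompactOperator (lo F A .G) := (Cht98.rellich (by norm_num)).comp_clm _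

/-- the resolvent commutes with constant intertwiners -/
theorem G_map (h' : RH F A') (T : V →L[ℝ] W) (hT : ∀ a x, A' a x ∘L T = T ∘L A a x) :
    lo F A' .G ∘L F.mulH 0 _ _ (fun _ => T) = F.mulH 0 _ _ (fun _ => T) ∘L lo F A .G :=
  th_ext fun u hu => by
    rw [ContinuousLinearMap.comp_apply, ContinuousLinearMap.comp_apply, mul_th contMDiff_const,
      G_th h, G_th h', mul_th contMDiff_const]
    exact th_congr _ _ (Mp86.res_eq h'.bmp h'.mc (Mp86.isRes_map h.mc.sm contMDiff_const
      ⟨_, fun _ => le_rfl⟩ (fun x a => by rw [dv_const, ← hT]; simp)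
      (h.isRes_tst hu (.of_compactSpace _)).1))

/-- the commutant of functions and the resolvent -/
theorem field {S : L2 M V F →L[ℝ] L2 M V F} (hG : S * lo F A .G = lo F A .G * S)
    (hf : ∀ f : M → ℝ, Sm I f → S * lo F A (.op fun x => f x • 1) =
      lo F A (.op fun x => f x • 1) * S) :
    ∃ σ : M → V →L[ℝ] V, Sm I σ ∧ S = lo F A (.op σ) ∧
      (∀ a x, F.D a σ x = σ x * A a x - A a x * σ x) ∧ ∀ T, Sm I T →
        S * lo F A (.op T) = lo F A (.op T) * S → ∀ x v, σ x (T x v) = T x (σ x v) := by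
  obtain ⟨σ, h1, h2, h3⟩ := h.rsd.exists_field h.mc.sm h.proj isOpen_univ dense_univ (P := S)
    (fun x => DFunLike.congr_fun hG x) fun g hg _ x => by
      have := DFunLike.congr_fun (hf g hg.sm) x
      rwa [lo, show F.mulH 0 _ _ (fun x => g x • (1 : V →L[ℝ] V)) = _ from Wrd81.smulH_zero hg]
        at this
  have e : S = lo F A (.op σ) := th_ext fun u hu => (h2 _).trans (mul_th h1 hu).symm
  refine ⟨σ, h1, e, h3, fun T hT c x v => ?_⟩
  have := DFunLike.congr_fun c (th F (contMDiff_const (c := v)))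
  rw [e, mul_apply_eq_comp, mul_apply_eq_comp, lo, lo, mul_th hT, mul_th h1, mul_th h1,
    mul_th hT] at this
  exact congrFun (congrArg Subtype.val (h.rsd.j_inj this)) x

end rh

section lin
variable {X : Type} [NormedAddCommGroup X] [InnerProductSpace ℝ X] [CompleteSpace X]
  {r : X →L[ℝ] V →L[ℝ] V} (hB : Mp86.Bumps I F.e F.dv) (hA : Mp86.Mc I A) (c : ℝ)
include hB hA

theorem wd_smul (u : M → V) : ∀ w : List (SL M V),
    wd (sl F A) (c • u) w = c • wd (sl F A) u w
  | [] => rfl
  | .op T :: w => by rw [Wrd81.wd_cons, wd_smul u w]; exact funext fun x => map_smul (T x) _ _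
  | .G :: w => by rw [Wrd81.wd_cons, wd_smul u w]; exact Mp86.res_smul hB hA c _

theorem bk_smul : ∀ (w : List (SL M V)) (u : M → V), bk F A w (c • u) = c • bk F A w u
  | [], _ => rfl
  | .op T :: w, u => (congrArg (bk F A w) (funext fun x => map_smul (adjoint (T x)) _ _)).trans
      (bk_smul w _)
  | .G :: w, u => (congrArg (bk F A w) (Mp86.res_smul hB hA c u)).trans (bk_smul w _)

theorem gc_smul (s : M → V) : ∀ (w : List (SL M V)) (l : M → V),
    gc F A r (c • s) w (c • l) = (c * c) • gc F A r s w l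
  | [], _ => (smul_zero _).symm
  | .op T :: w, l => (congrArg (gc F A r _ w) (funext fun x => map_smul (adjoint (T x)) _ _)).trans
      (gc_smul s w _)
  | .G :: w, l => funext fun x => by
      have e : ∀ u, F.res A (c • u) = c • F.res A u := Mp86.res_smul hB hA c
      have n : ∀ u a, Wz78.nab I F.e A a (c • F.res A u) x = c • Wz78.nab I F.e A a (F.res A u) x :=
        fun u a => by
          rw [Wz78.nab, dv_const_smul c ((Mp86.sm_res F A u).mdifferentiableAt (by simp))]
          simp [Wz78.nab]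
      simp only [gc, wd_smul hB hA, e, gc_smul s w, Pi.smul_apply, smul_sub]
      congr 1
      refine PiLp.ext fun a => ext_inner_right ℝ fun ξ => ?_
      simp only [cur, n, PiLp.smul_apply, inner_add_left, inner_tp, real_inner_smul_left,
        real_inner_smul_right, Pi.smul_apply, map_smul]
      ring

end lin

end Crest.Agent.X212.Im23
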