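import Crest.Agent.X212.Im23.Abs
import Crest.Agent.X212.Im23.Wd

/-!
# Row 212, CRIT-IM (helper23): direct sums and the algebra of words
-/

set_option autoImplicit false
set_option linter.unusedSectionVars false
noncomputable section
open scoped Manifold ContDiff Topology InnerProductSpace
open MeasureTheory Set Function Filter

namespace Crest.Agent.X212.Im23
open An Sob92 Dgr80
open Crt72 (rk rk_apply)
open Wrd81 (RH)
open ContinuousLinearMap (adjoint)

section abs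
variable {H : Type} [NormedAddCommGroup H] [InnerProductSpace ℝ H] [CompleteSpace H]

theorem star_of {A B : H →L[ℝ] H} {ε : ℝ} (h : ∀ x y, ⟪A x, y⟫_ℝ = ε * ⟪x, B y⟫_ℝ) :
    star A = ε • B :=
  ((ContinuousLinearMap.eq_adjoint_iff _ _).2 fun x y => by
    rw [real_inner_comm (A y), h, smul_apply, real_inner_smul_left, real_inner_comm]).symm

theorem inner_star (A : H →L[ℝ] H) (x y : H) : ⟪A x, y⟫_ℝ = ⟪x, star A y⟫_ℝ :=
  (ContinuousLinearMap.adjoint_inner_right A x y).symm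

variable {Λ : Type} {OK : Λ → Prop} (ℓ : Λ → H →L[ℝ] H)

variable (OK) in
/-- pairs of words -/
abbrev PW : Type := {p : List Λ × List Λ // (∀ t ∈ p.1, OK t) ∧ ∀ t ∈ p.2, OK t}

/-- the operator of a pair of words -/
def Ow (j : PW OK) : H →L[ℝ] H := star (j.1.1.map ℓ).prod * (j.1.2.map ℓ).prod

variable {ℓ}

theorem star_w (h : ∀ t, OK t → ∃ ε : ℝ, star (ℓ t) = ε • ℓ t) : ∀ {u : List Λ}, (∀ t ∈ u, OK t) →
    ∃ ε : ℝ, star (u.map ℓ).prod = ε • (u.reverse.map ℓ).prod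
  | [], _ => ⟨1, by simp⟩
  | t :: u, hu => by
    obtain ⟨a, ha⟩ := h t (hu t (by simp))
    obtain ⟨b, hb⟩ := star_w h (u := u) fun t ht => hu t (by simp [ht])
    exact ⟨a * b, by simp [ha, hb, smul_smul]⟩

theorem lt_mem {t : Λ} (ht : OK t) : ℓ t ∈ Submodule.span ℝ (range (Ow (OK := OK) ℓ)) :=
  Submodule.subset_span ⟨⟨([], [t]), by simp, by simpa using ht⟩, by simp [Ow]⟩

/-- **The abstract form.** -/
theorem core (h : ∀ t, OK t → ∃ ε : ℝ, star (ℓ t) = ε • ℓ t) {J G : Λ} (hJ : OK J) (hG : OK G)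
    (sJ : star (ℓ J) = (-1 : ℝ) • ℓ J) (sG : star (ℓ G) = (1 : ℝ) • ℓ G)
    (hc : IsCompactOperator (ℓ G)) (hi : Injective (ℓ G)) (hJG : ∀ x, ℓ J (ℓ G x) = ℓ G (ℓ J x))
    {ι : Type} [Fintype ι] {X : ι → Type} [∀ m, NormedAddCommGroup (X m)]
    [∀ m, InnerProductSpace ℝ (X m)] [∀ m, CompleteSpace (X m)] {L : ∀ m, H →L[ℝ] X m}
    {R : ∀ m, X m →L[ℝ] H} {n : ι}
    (ad : ∀ x y, ⟪L n x, y⟫_ℝ = ⟪x, R n y⟫_ℝ) {ψ : X n} {X0 : X n →L[ℝ] X n}
    (hX : X0 ψ = L n (ℓ J (R n ψ))) (hψ : L n (R n ψ) = ψ) (JJ : ∀ x, ℓ J (ℓ J x) = -x)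
    (h0 : ∀ m, m ≠ n → L m (R n ψ) = 0 ∧ L m (ℓ J (R n ψ)) = 0)
    (hS : ∀ S : H →L[ℝ] H, (∀ t, OK t → S * ℓ t = ℓ t * S) →
      ∃ r s : ℝ, S (R n ψ) = r • R n ψ + s • ℓ J (R n ψ)) {δ : ℝ} (hδ : 0 < δ) :
    ∃ (S : Finset (PW OK)) (c : PW OK → ℝ),
      ‖∑ j ∈ S, c j • L n ∘L (Ow ℓ j + star (Ow ℓ j)) ∘L R n - rk X0 ψ‖ ≤ δ ∧
      ∀ m, m ≠ n → ‖∑ j ∈ S, c j • L m ∘L (Ow ℓ j + star (Ow ℓ j)) ∘L R m‖ ≤ δ := by
  set C := ∑ m, ‖L m‖ * ‖R m‖ + 1
  have c0 : ∀ m, ‖L m‖ * ‖R m‖ ≤ C := fun m => (Finset.single_le_sum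
    (f := fun m => ‖L m‖ * ‖R m‖) (fun _ _ => by positivity) (Finset.mem_univ m)).trans (by simp [C])
  have c1 : 0 < C := by positivity
  obtain ⟨a, ha, e⟩ := approx (𝒜 := Submodule.span ℝ (range (Ow (OK := OK) ℓ))) (fun a ha b hb => by
      refine mem_of_le_of_mem ?_ (Submodule.mul_mem_mul ha hb)
      rw [Submodule.span_mul_span, Submodule.span_le]
      rintro _ ⟨_, ⟨⟨⟨u, v⟩, hu, hv⟩, rfl⟩, _, ⟨⟨⟨u', v'⟩, hu', hv'⟩, rfl⟩, rfl⟩
      obtain ⟨ε, hε⟩ := star_w h hu'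
      have := Submodule.smul_mem _ ε (Submodule.subset_span (R := ℝ) (mem_range_self (f := Ow ℓ)
        (⟨(u, v ++ u'.reverse ++ v'), hu, by simp only [List.mem_append, List.mem_reverse]; grind⟩ :
          PW OK)))
      simpa [Ow, hε, mul_assoc] using this)
    (fun a ha => ⟨star a, by
      induction ha using Submodule.span_induction with
      | mem _ hj =>
        obtain ⟨⟨⟨u, v⟩, hu, hv⟩, rfl⟩ := hj
        exact Submodule.subset_span ⟨⟨(v, u), hv, hu⟩, by simp [Ow]⟩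
      | zero => simp
      | add _ _ _ _ h1 h2 => simpa using add_mem h1 h2
      | smul c _ _ h1 => simpa using Submodule.smul_mem _ c h1, inner_star a⟩)
    (Submodule.subset_span ⟨⟨([], []), by simp, by simp⟩, by simp [Ow]⟩) (lt_mem hJ)
    (fun x y => by simp [inner_star, sJ]) (lt_mem hG) hc (fun x y => by simp [inner_star, sG]) hi
    hJG (JJ (R n ψ)) (fun S hs => hS S fun t ht => hs _ (lt_mem ht)) (div_pos hδ c1)
  obtain ⟨c, rfl⟩ := Finsupp.mem_span_range_iff_exists_finsupp.1 ha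
  set Q := rk (ℓ J) (R n ψ)
  have sQ : star Q = Q := (star_of (ε := 1) fun x y => by
    simp only [Q, rk_apply, inner_add_left, inner_add_right, real_inner_smul_left,
      real_inner_smul_right, real_inner_comm x]
    ring).trans (one_smul _ _)
  have k : ∀ m, ‖∑ j ∈ c.support, (c j / 2) • L m ∘L (Ow ℓ j + star (Ow ℓ j)) ∘L R m -
      L m ∘L Q ∘L R m‖ ≤ δ := fun m => by
    set b := (c.sum fun j r => r • Ow ℓ j) - Q with hb
    have : ‖(1 / 2 : ℝ) • (b + star b)‖ ≤ δ / C := by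
      rw [norm_smul, show ‖(1 / 2 : ℝ)‖ = 1 / 2 by norm_num]
      linarith [norm_add_le b (star b), norm_star b]
    calc _ = ‖L m ∘L ((1 / 2 : ℝ) • (b + star b)) ∘L R m‖ := by
          congr 1
          ext x
          simp only [hb, star_sub, sQ, Finsupp.sum, star_sum, star_smul, star_trivial, sub_apply,
            sum_apply, smul_apply, ContinuousLinearMap.comp_apply, add_apply, map_add, map_sub,
            map_smul, map_sum, smul_add, smul_sub, Finset.smul_sum, smul_smul,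
            Finset.sum_add_distrib, div_eq_inv_mul, mul_one]
          module
      _ ≤ ‖L m‖ * (δ / C * ‖R m‖) := (ContinuousLinearMap.opNorm_comp_le _ _).trans (by
          gcongr; exact (ContinuousLinearMap.opNorm_comp_le _ _).trans (by gcongr))
      _ ≤ δ := by
          rw [mul_left_comm, div_mul_eq_mul_div, div_le_iff₀ c1]; gcongr; exact c0 m
  refine ⟨c.support, fun j => c j / 2, ?_, fun m hm => ?_⟩
  · convert k n using 3
    ext x
    simp only [Q, rk_apply, ContinuousLinearMap.comp_apply, map_add, map_smul, ← ad, hψ, hX]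
  · convert k m using 2
    refine (sub_eq_self.2 ?_).symm
    ext x
    simp [Q, rk_apply, h0 m hm]

end abs

section blk
variable {ι : Type} [Fintype ι] [DecidableEq ι] {V : ι → Type} [∀ m, NormedAddCommGroup (V m)]
  [∀ m, InnerProductSpace ℝ (V m)]

variable (V) in
/-- projection -/
def prj (m : ι) : PiLp 2 V →L[ℝ] V m := PiLp.proj 2 V m

variable (V) in
/-- inclusion -/
def inj (m : ι) : V m →L[ℝ] PiLp 2 V :=
  (PiLp.continuousLinearEquiv 2 ℝ V).symm.toContinuousLinearMap ∘L ContinuousLinearMap.single ℝ V m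

/-- block diagonal operators -/
def blk (T : ∀ m, V m →L[ℝ] V m) : PiLp 2 V →L[ℝ] PiLp 2 V := ∑ m, inj V m ∘L T m ∘L prj V m

theorem prj_apply (m : ι) (v : PiLp 2 V) : prj V m v = v m := rfl

theorem inj_apply (m l : ι) (v : V m) : inj V m v l = Pi.single (M := V) m v l := rfl

theorem blk_apply (T : ∀ m, V m →L[ℝ] V m) (v : PiLp 2 V) (m : ι) : blk T v m = T m (v m) := by
  simp only [blk, sum_apply, WithLp.ofLp_sum, Finset.sum_apply, ContinuousLinearMap.comp_apply,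
    inj_apply, prj_apply]
  exact congrFun (Finset.univ_sum_single fun m => T m (v m)) m ▸ (Finset.sum_apply _ _ _).symm

theorem blk_inj (T : ∀ m, V m →L[ℝ] V m) (m : ι) (v : V m) : blk T (inj V m v) = inj V m (T m v) :=
  PiLp.ext fun l => by
    rw [blk_apply, inj_apply, inj_apply, Pi.apply_single (fun l => T l) (fun _ => map_zero _)]

theorem inner_inj (m : ι) (v : V m) (w : PiLp 2 V) : ⟪inj V m v, w⟫_ℝ = ⟪v, w m⟫_ℝ := by
  rw [PiLp.inner_apply, Finset.sum_eq_single m (fun l _ h => by simp [inj_apply, h]) (by simp)]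
  simp [inj_apply]

theorem blk_adj {T : ∀ m, V m →L[ℝ] V m} {ε : ℝ} (h : ∀ m v w, ⟪T m v, w⟫_ℝ = ε * ⟪v, T m w⟫_ℝ)
    (v w : PiLp 2 V) : ⟪blk T v, w⟫_ℝ = ε * ⟪v, blk T w⟫_ℝ := by
  simp only [PiLp.inner_apply, blk_apply, h, Finset.mul_sum]

theorem sm_blk {E H M : Type} [NormedAddCommGroup E] [NormedSpace ℝ E] [TopologicalSpace H]
    {I : ModelWithCorners ℝ E H} [TopologicalSpace M] [ChartedSpace H M]
    {T : ∀ m, M → V m →L[ℝ] V m} (h : ∀ m, Sm I (T m)) : Sm I fun x => blk fun m => T m x :=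
  contMDiff_finsetSum fun m _ => contMDiff_const.clm_comp ((h m).clm_comp contMDiff_const)

end blk

end Crest.Agent.X212.Im23
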