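import Crest.Agent.X212.Im23.One
import Crest.Agent.X212.Im23.Sum
import Crest.Agent.X212.Im23.Cls

/-!
# Row 212, CRIT-IM (helper23): the normal Hessians at finitely many type I points
-/

set_option autoImplicit false
set_option linter.unusedSectionVars false
noncomputable section
open scoped Manifold ContDiff Topology InnerProductSpace
open MeasureTheory Set Function Filter

namespace Crest.Agent.X212.Im23
open An Sob92 Dgr80 Nd18 Crt72 Cgr76 Cyf70
open Wrd81 (RH)
open Wz78 (nabH nabH_comp nabH_const)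

variable {E3 : Type} [NormedAddCommGroup E3] [NormedSpace ℝ E3] [FiniteDimensional ℝ E3]
  [MeasurableSpace E3] [BorelSpace E3]
  {H3 : Type} [TopologicalSpace H3] {I3 : ModelWithCorners ℝ E3 H3} [I3.Boundaryless]
  {Y : Type} [TopologicalSpace Y] [ChartedSpace H3 Y] [IsManifold I3 ∞ Y] [T2Space Y]
  [MeasurableSpace Y] [BorelSpace Y] [SecondCountableTopology Y] [CompactSpace Y]
  {κ : Type} [Fintype κ] {lam : Type} [Fintype lam] {D : YD I3 Y κ lam}

/-- a homomorphism on `Y` which commutes with the letters -/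
theorem iw {β β' : YC Y κ lam} (hβ : D.Adm β) (hβ' : D.Adm β') {s : Y → CL β.m.V β'.m.V}
    (hs : Sm I3 s) (hp : ∀ a y, nabH I3 D.F.e (cn β) (cn β') a s y = 0)
    (hc : ∀ t : YL Y, t.OK I3 → ∀ y v, s y (fld D.F β t y v) = fld D.F β' t y (s y v)) :
    Iw D.G (cy β) (cy β') fun x => s x.1 ∘L β.m.p x.1 := by
  have r : ∀ a y v, s y (β.m.ρ a y v) = β'.m.ρ a y (s y v) := by
    rintro (_ | b) y v
    · exact hc (.cl none) (fun _ h => by cases h) y v
    · obtain ⟨g, hg, e⟩ := Wrd81.exists_tf_D D.F (O := univ) (x := y) univ_mem b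
      have k : ∀ {β : YC Y κ lam}, D.Adm β → fld D.F β (.cl (some g)) y = β.m.ρ (some b) y :=
        fun hβ => by simpa [fld, e, Fintype.sum_option, B3, YD.B, cP]
          using ((mok hβ).cl y).proj (some b)
      rw [← k hβ, ← k hβ']
      exact hc (.cl (some g)) (fun _ h => by cases h; exact hg.sm) y v
  have k : ∀ {β : YC Y κ lam}, D.Adm β → ∀ y v, β.m.p y v = -β.m.ρ none y (β.m.ρ none y v) :=
    fun hβ y v => by
      have := ap (((mok hβ).cl y).rel none none) v
      simp only [B3, YD.B, cP, add_apply, mul_apply_eq_comp, smul_apply] at this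
      exact smul_right_injective _ (two_ne_zero (α := ℝ)) (by linear_combination (norm := module) this)
  have p : ∀ y v, s y (β.m.p y v) = β'.m.p y (s y v) := fun y v => by
    rw [k hβ, k hβ', map_neg, r, r]
  have pp : ∀ y v, β.m.p y (β.m.p y v) = β.m.p y v := fun y => ap ((mok hβ).pidem y)
  refine ⟨sm_fst (hs.clm_comp (mok hβ).sp), fun a x => ?_, fun x v => ?_, fun x v => ?_,
    fun x a v => ?_, fun x v => ?_⟩
  · refine (nabH_comp (A' := (cy β).W) a (sm_fst hs x) (sm_fst (mok hβ).sp x)).trans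
      ((congrArg₂ (fun (a : CL β.m.V β'.m.V) (b : CL β.m.V β.m.V) => a ∘L β.m.p x.1 + s x.1 ∘L b)
        (x' := 0) (y' := 0) ?_ (hβ.adm.conn.cc.par a x)).trans (by simp; rfl))
    rcases a with _ | a
    · exact (congrArg₂ (· + ·) (congrFun (D_none_fst D.F.toPre hs) x)
        (show β'.W none x.1 ∘L _ - _ ∘L β.W none x.1 = 0 by simp [hβ.tmp, hβ'.tmp])).trans
        (add_zero _)
    · exact (congrArg (fun a : CL β.m.V β'.m.V => a + _)
        (congrFun (D_some_fst D.F.toPre hs a) x)).trans (hp a x.1)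
  · exact (p _ _).symm.trans (congrArg _ (pp _ _))
  · exact congrArg (s x.1) (pp _ _)
  · exact (congrArg (s x.1) ((ap (((mok hβ).cl _).pl a) v).trans
      (ap (((mok hβ).cl _).pr a) v).symm)).trans (r _ _ _)
  · exact (congrArg (s x.1) (ap ((mok hβ).Jp _) v).symm).trans (hc .im trivial _ _)

variable {ι : Type} [Fintype ι] [DecidableEq ι] {β : ι → YC Y κ lam}

variable (β) in
/-- the fibres -/
abbrev Vm (m : ι) : Type := (β m).m.V

variable (β) in
/-- the direct sum -/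
abbrev VV : Type := PiLp 2 (Vm β)

variable (β) in
/-- its connection -/
def AA (a : κ) (y : Y) : VV β →L[ℝ] VV β := blk fun m => cn (β m) a y

variable (D β) in
/-- the letters -/
def lt : YL Y → L2 Y (VV β) D.F →L[ℝ] L2 Y (VV β) D.F
  | .G => lo D.F (AA β) .G
  | t => lo D.F (AA β) (.op fun y => blk fun m => fld D.F (β m) t y)

variable (D β) in
/-- the inclusions -/
def iH (m : ι) : L2 Y (β m).m.V D.F →L[ℝ] L2 Y (VV β) D.F := D.F.mulH 0 _ _ fun _ => inj (Vm β) m

variable (D β) in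
/-- the projections -/
def pH (m : ι) : L2 Y (VV β) D.F →L[ℝ] L2 Y (β m).m.V D.F := D.F.mulH 0 _ _ fun _ => prj (Vm β) m

theorem lt_eq (t : YL Y) : t = .G ∨ (lt D β t = lo D.F (AA β) (.op fun y =>
    blk fun m => fld D.F (β m) t y)) ∧ ∀ m, ylt D.F (β m) t = .op (fld D.F (β m) t) := by
  rcases t with _ | (_ | _) | _ | _ <;> first | exact .inr ⟨rfl, fun _ => rfl⟩ | exact .inl rfl

theorem ad_ip (m : ι) (x : L2 Y (β m).m.V D.F) (y : L2 Y (VV β) D.F) :
    ⟪iH D β m x, y⟫_ℝ = ⟪x, pH D β m y⟫_ℝ :=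
  (mul_adj (ε := 1) contMDiff_const contMDiff_const (Maps.triv _) (Maps.triv _)
    (fun _ _ _ _ _ => by rw [one_mul, inner_inj]; rfl) x y).trans (one_mul _)

theorem pH_iH (m : ι) (x : L2 Y (β m).m.V D.F) : pH D β m (iH D β m x) = x :=
  (mulH_mulH (Cb_const _) (Maps.triv _) (Cb_const _) (Maps.triv _) x).trans
    (mulH_id (fun _ _ _ => by simp [prj_apply, inj_apply]) x)

theorem pH_ne {m n : ι} (e : m ≠ n) (x : L2 Y (β n).m.V D.F) : pH D β m (iH D β n x) = 0 :=
  DFunLike.congr_fun (th_ext (A := pH D β m ∘L iH D β n) (B := 0) fun u hu => by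
    rw [ContinuousLinearMap.comp_apply, iH, pH, mul_th contMDiff_const, mul_th contMDiff_const]
    exact (congrArg (D.F.toH 0 _) (Subtype.ext (funext fun y => by
      simp [prj_apply, inj_apply, e]))).trans (map_zero _)) x

variable (h : HY D) (hβ : ∀ m, D.Adm (β m))
include h hβ

theorem rhA : RH D.F (AA β) :=
  Wrd81.rh_of_tame (tame h).choose_spec (fun a => Cb_of_compact (sm_blk fun m => sm_cn (hβ m) a))
    (fun a y v w => (blk_adj (ε := -1) (fun m v w => by rw [skw_cn (hβ m)]; simp) v w).trans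
      (neg_one_mul _)) fun a y => ContinuousLinearMap.ext fun v => PiLp.ext fun m => by
    simp [AA, blk_apply, ← P_cn (hβ m) a y]

theorem star_lt {t : YL Y} (ht : t.OK I3) : star (lt D β t) = sgn t • lt D β t := star_of fun x y => by
  rcases lt_eq (D := D) (β := β) t with rfl | ⟨e, -⟩
  · exact ((rhA h hβ).rsd.symm x y).trans (one_mul _).symm
  · have s := sm_blk fun m => sm_fld (hβ m) ht
    rw [e]
    exact mul_adj s s (Maps.triv _) (Maps.triv _)
      (fun z v w _ _ => blk_adj (fun m => fld_adj (hβ m) t z) v w) x y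

theorem lt_iH {t : YL Y} (ht : t.OK I3) (m : ι) (x : L2 Y (β m).m.V D.F) :
    lt D β t (iH D β m x) = iH D β m (lo D.F (cn (β m)) (ylt D.F (β m) t) x) := by
  rcases lt_eq (D := D) (β := β) t with rfl | ⟨e, e'⟩
  · exact DFunLike.congr_fun (G_map (rhY h (hβ m)) (rhA h hβ) (inj (Vm β) m) fun a y =>
      ContinuousLinearMap.ext (blk_inj (V := Vm β) _ m)) x
  · rw [e, e', lo, lo, iH, mulH_mulH (Cb_const _) (Maps.triv _) (Cb_of_compact (sm_blk fun m =>
      sm_fld (hβ m) ht)) (Maps.triv _), mulH_mulH (Cb_of_compact (sm_fld (hβ m) ht)) (Maps.triv _)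
      (Cb_const _) (Maps.triv _), mulH_congr]
    exact fun y v _ => blk_inj (V := Vm β) _ m v

theorem w_iH (m : ι) (x : L2 Y (β m).m.V D.F) : ∀ {u : List (YL Y)}, (∀ t ∈ u, t.OK I3) →
    (u.map (lt D β)).prod (iH D β m x) = iH D β m (WY D (β m) u x)
  | [], _ => rfl
  | t :: u, hu => (congrArg (lt D β t) (w_iH m x (u := u) fun t ht => hu t (by simp [ht]))).trans
      (lt_iH h hβ (hu t (by simp)) m _)

theorem BY_eq (m : ι) (j : Bw D) (x : L2 Y (β m).m.V D.F) : pH D β m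
    ((Ow (OK := YL.OK I3) (lt D β) j + star (Ow (OK := YL.OK I3) (lt D β) j)) (iH D β m x)) =
      BY D (β m) j.1.1 j.1.2 x := ext_inner_left ℝ fun y => by
  simp only [← ad_ip, Ow, BY, star_mul, star_star, add_apply, mul_apply_eq_comp, inner_add_right,
    ← inner_star, w_iH h hβ m _ j.2.1, w_iH h hβ m _ j.2.2,
    ContinuousLinearMap.adjoint_inner_right]
  simp only [ad_ip, pH_iH]

theorem comm [ConnectedSpace Y] (h0 : ∀ m y, (β m).Φ y = 0) {n : ι}
    (hL : ¬Lin D.Z (cy (β n)) univ) (hn : ∀ m, D.Eqv (β n) (β m) → n = m)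
    (S : L2 Y (VV β) D.F →L[ℝ] L2 Y (VV β) D.F)
    (hS : ∀ t : YL Y, t.OK I3 → S * lt D β t = lt D β t * S) : ∃ r s : ℝ, ∀ ψ,
      S (iH D β n (rr D _ ψ)) = r • iH D β n (rr D _ ψ) + s • lt D β .im (iH D β n (rr D _ ψ)) := by
  obtain ⟨σ, h1, rfl, h3, h4⟩ := field (rhA h hβ) (hS .G trivial) fun f hf => by
    rw [show (fun y => f y • 1) = fun y => blk fun m => fld D.F (β m) (.mul f) y from
      funext fun y => ContinuousLinearMap.ext fun v => PiLp.ext fun m => by simp [blk_apply, fld]]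
    exact hS (.mul f) hf
  have i := fun m => iw (hβ n) (hβ m) (s := fun y => prj (Vm β) m ∘L σ y ∘L inj (Vm β) n)
    (contMDiff_const.clm_comp (h1.clm_comp contMDiff_const)) (fun a y => by
      rw [nabH_comp (A' := AA β) a contMDiffAt_const ((h1 y).clm_comp contMDiffAt_const),
        nabH_comp (A' := AA β) a (h1 y) contMDiffAt_const,
        nabH_const a (prj (Vm β) m) fun v => (blk_apply (fun m => cn (β m) a y) v m).symm, nabH_const a _ (blk_inj (V := Vm β) _ n),
        show nabH I3 D.F.e (AA β) (AA β) a σ y = 0 from (congrArg (· + _) (h3 a y)).trans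
          (by simp [ContinuousLinearMap.mul_def])]
      simp) fun t ht y v => by
      rcases lt_eq (D := D) (β := β) t with rfl | ⟨e, -⟩
      · simp [fld]
      · have := h4 _ (sm_blk fun m => sm_fld (hβ m) ht) (e ▸ hS t ht) y (inj (Vm β) n v)
        rw [blk_inj] at this
        exact (congrArg (· m) this).trans (blk_apply _ _ m)
  obtain ⟨r, s, e⟩ := (i n).self h.ok.B h.ok.G (hβ n).adm hL
  refine ⟨r, s, fun ψ => DFunLike.congr_fun (Pre.clm_ext (A := _ ∘L iH D β n ∘L rr D _)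
    (B := r • iH D β n ∘L rr D _ + s • lt D β .im ∘L iH D β n ∘L rr D _) fun u => ?_) ψ⟩
  simp only [ContinuousLinearMap.comp_apply, add_apply, smul_apply, lt, lo, iH, rr]
  rw [mul_toH contMDiff_const, mul_th contMDiff_const, mul_th h1,
    mul_th (sm_blk fun m => sm_fld (hβ m) (t := .im) trivial), th, th, th, ← map_smul, ← map_smul,
    ← map_add]
  refine congrArg _ (Subtype.ext (funext fun y => PiLp.ext fun m => ?_))
  obtain ⟨φ, hφ⟩ : ∃ φ, Map77.fp (u.1 y) = φ := ⟨_, rfl⟩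
  have p : (β n).m.p y φ = φ := hφ ▸ p_pv (hβ n) (Lin97.maps_rP y _ (u.2.2.2 y))
  show σ y (inj (Vm β) n (Map77.fp (u.1 y))) m = r • inj (Vm β) n (Map77.fp (u.1 y)) m +
    s • blk (V := Vm β) (fun m => (β m).m.J) (inj (Vm β) n (Map77.fp (u.1 y))) m
  rw [hφ, blk_inj, inj_apply, inj_apply, ← p]
  rcases eq_or_ne m n with rfl | hm
  · simp only [Pi.single_eq_same]
    exact e (y, 0) φ
  · simp only [Pi.single_eq_of_ne hm, smul_zero, add_zero]
    exact ap ((i m).zero h.ok.B h.ok.G (hβ n).adm (hβ m).adm (fun x => h0 n x.1) (fun x => h0 m x.1)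
      (Subsingleton.elim _ _) (fun e => hm (hn m e).symm) (y, 0)) φ

theorem JG (x : L2 Y (VV β) D.F) : lt D β .im (lt D β .G x) = lt D β .G (lt D β .im x) :=
  (DFunLike.congr_fun (G_map (rhA h hβ) (rhA h hβ) (blk fun m => (β m).m.J) fun a y =>
    ContinuousLinearMap.ext fun v => PiLp.ext fun m => by
      simpa [AA, blk_apply] using (ap (J_cn (hβ m) a y) _).symm) x).symm

theorem JJ (x : L2 Y (VV β) D.F) : lt D β .im (lt D β .im x) = -x :=
  DFunLike.congr_fun (th_ext (A := lt D β .im ∘L lt D β .im) (B := -1) fun u hu => by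
    have s := sm_blk fun m => sm_fld (hβ m) (t := .im) trivial
    simp only [ContinuousLinearMap.comp_apply, lt, lo]
    rw [mul_th s, mul_th s]
    exact (congrArg (D.F.toH 0 _) (Subtype.ext (funext fun y => PiLp.ext fun m => by
      simpa [blk_apply, fld] using ap (mok (hβ m)).Jsq _))).trans (map_neg _ _)) x

theorem main (h0 : ∀ m y, (β m).Φ y = 0) {n : ι} (hL : ¬Lin D.Z (cy (β n)) univ)
    (hn : ∀ m, D.Eqv (β n) (β m) → n = m) {X0 : XX D (β n) 0 →L[ℝ] XX D (β n) 0}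
    (X : ∀ y, X0 y = ll D _ (D.F.mulH 0 _ _ (fun _ => (β n).m.J) (rr D _ y))) {ψ : XX D (β n) 0}
    (hψ : X0 (X0 ψ) = -ψ) {δ : ℝ} (hδ : 0 < δ) : ∃ (S : Finset (Bw D)) (c : Bw D → ℝ),
      ‖∑ j ∈ S, c j • ll D (β n) ∘L BY D _ j.1.1 j.1.2 ∘L rr D _ - rk X0 ψ‖ ≤ δ ∧
      ∀ m, m ≠ n → ‖∑ j ∈ S, c j • ll D (β m) ∘L BY D _ j.1.1 j.1.2 ∘L rr D _‖ ≤ δ := by
  have := h.conn
  have l := lt_iH h hβ (t := .im) trivial n (rr D _ ψ)
  have e : ∀ m (j : Bw D), ll D (β m) ∘L BY D _ j.1.1 j.1.2 ∘L rr D _ = (ll D _ ∘L pH D β m) ∘L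
      (Ow (OK := YL.OK I3) (lt D β) j + star (Ow (OK := YL.OK I3) (lt D β) j)) ∘L iH D β m ∘L
        rr D _ := fun m j => ContinuousLinearMap.ext fun x => congrArg _ (BY_eq h hβ m j _).symm
  simp only [e]
  refine core (OK := YL.OK I3) (ℓ := lt D β) (fun t ht => ⟨_, star_lt h hβ ht⟩) (J := .im) (G := .G)
    trivial trivial (star_lt h hβ trivial) (star_lt h hβ trivial) (G_cpt (rhA h hβ))
    ((rhA h hβ).rsd.G_inj (rhA h hβ).mc.sm) (JG h hβ) (L := fun m => ll D (β m) ∘L pH D β m)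
    (R := fun m => iH D β m ∘L rr D (β m)) (fun x y => ?_) ?_ ?_ (JJ h hβ) (fun m e => ?_)
    (fun S hS => (comm h hβ h0 hL hn S hS).imp fun _ => .imp fun _ e => e ψ) hδ <;>
    simp only [ContinuousLinearMap.comp_apply, l, pH_iH]
  · rw [ad_lr h (hβ n), real_inner_comm, ← ad_ip, real_inner_comm]
  · exact X ψ
  · rw [← neg_neg ψ, ← hψ, X, map_neg, map_neg, lrl h (hβ n)]
  · simp [pH_ne e]

omit h hβ in
/-- **CRIT-IM.** -/
theorem im (D : YD I3 Y κ lam) : ImStmt D := by
  intro h hV hs k hk act sf ι _ x hx hn n ψ hψ δ hδ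
  classical
  have h0 : ∀ m y, (x m).1.Φ y = 0 := fun m y => by
    have e := val_jv2 h (x m).2 (j := k + 1) (by omega) 0 y
    rw [show jv D (x m).1 (k + 1) 0 = 0 from (hx m).1] at e
    have := ap (mok (x m).2).Jsq ((x m).1.Φ y)
    simp only [sv, Prod.snd_zero, val_zero, Pi.zero_apply, add_zero] at e
    simpa [← e] using this.symm
  obtain ⟨S, c, a, b⟩ := main h (fun m => (x m).2) h0 (hx n).2 (hn n) (xX_eq h (x n).2 (k + 2)) hψ hδ
  refine ⟨S, c, fun m => ∑ j ∈ S, c j • ll D (x m).1 ∘L BY D _ j.1.1 j.1.2 ∘L rr D _, fun m => ?_,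
    a, b⟩
  refine isHs_sum (Q := gm D k act sf) (o := x m) (fun j => ?_) S c
  exact isHs h (x m).2 hV (h0 m) (hs (.sw j) fun _ e => by cases e) hk

end Crest.Agent.X212.Im23
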