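import Crest.Agent.X212.Crt72.Step

/-!
# Row 212, CRIT-IM (helper23): complex rank one operators in the norm closure of a star algebra
-/

set_option autoImplicit false
set_option linter.unusedSectionVars false
noncomputable section
open Set Filter Topology Function Module
open scoped InnerProductSpace

namespace Crest.Agent.X212.Im23
open Crt72 (rk rk_apply bicomm')

variable {H : Type*} [NormedAddCommGroup H] [InnerProductSpace ℝ H] [CompleteSpace H]

/-- the projector onto an eigenspace of a compact symmetric operator is a limit of polynomials -/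
theorem proj_mem {𝒞 : Submodule ℝ (H →L[ℝ] H)} (hc : IsClosed (𝒞 : Set (H →L[ℝ] H)))
    (hm : ∀ a ∈ 𝒞, ∀ b ∈ 𝒞, a * b ∈ 𝒞) (h1 : 1 ∈ 𝒞) {G : H →L[ℝ] H} (hG : G ∈ 𝒞)
    (hGc : IsCompactOperator G) (hGs : ∀ x y, ⟪G x, y⟫_ℝ = ⟪x, G y⟫_ℝ) {μ : ℝ} (hμ : μ ≠ 0)
    (V : Submodule ℝ H) [V.HasOrthogonalProjection] (hV : ∀ x, x ∈ V ↔ G x = μ • x) :
    V.starProjection ∈ 𝒞 := by
  set P := V.starProjection with hP
  set B : H →L[ℝ] H := G - μ • 1 with hB
  have Bx : ∀ x, B x = G x - μ • x := fun x => rfl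
  have BV : ∀ x ∈ V, B x = 0 := fun x hx => by rw [Bx, (hV x).1 hx, sub_self]
  have Bs : ∀ x y, ⟪B x, y⟫_ℝ = ⟪x, B y⟫_ℝ := fun x y => by
    simp only [Bx, inner_sub_left, inner_sub_right, hGs, real_inner_smul_left,
      real_inner_smul_right]
  have Bo : ∀ x, B x ∈ Vᗮ := fun x y hy => by rw [← Bs, BV y hy, inner_zero_left]
  obtain ⟨K, hK⟩ := IsCompactOperator.antilipschitz_of_not_hasEigenvalue
    (T := G ∘L Vᗮ.starProjection) (hGc.comp_clm _) hμ fun h => by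
      obtain ⟨x, hx, h0⟩ := h.exists_hasEigenvector
      have e : G (Vᗮ.starProjection x) = μ • x := End.mem_eigenspace_iff.1 hx
      have xo : x ∈ Vᗮ := by
        have : μ • x ∈ Vᗮ := by
          rw [← e, ← sub_add_cancel (G _) (μ • Vᗮ.starProjection x)]
          exact add_mem (Bo _) (Submodule.smul_mem _ _ (Vᗮ.starProjection_apply_mem x))
        exact (Submodule.smul_mem_iff _ hμ).1 this
      rw [Submodule.starProjection_eq_self_iff.2 xo] at e
      exact h0 (inner_self_eq_zero.1 (xo x ((hV x).2 e)))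
  have low : ∀ x ∈ Vᗮ, ‖x‖ ≤ (K + 1) * ‖B x‖ := fun x hx => by
    have := hK.le_mul_dist x 0
    simp only [map_zero, dist_zero_right, sub_apply, ContinuousLinearMap.comp_apply,
      Submodule.starProjection_eq_self_iff.2 hx, smul_apply] at this
    refine this.trans (mul_le_mul_of_nonneg_right (by linarith) (norm_nonneg _))
  have K0 : (0 : ℝ) < K + 1 := by positivity
  set c : ℝ := (‖B‖ ^ 2 + 1)⁻¹ with hcd
  have c0 : 0 < c := by positivity
  have c1 : c * (‖B‖ ^ 2 + 1) = 1 := inv_mul_cancel₀ (by positivity)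
  set h : H →L[ℝ] H := 1 - c • (B * B) with hh
  have hx : ∀ x, h x = x - c • B (B x) := fun x => rfl
  set θ : ℝ := √(max 0 (1 - c / (K + 1) ^ 2)) with hθ
  have θ1 : θ < 1 := by
    rw [hθ, Real.sqrt_lt' one_pos, one_pow]
    exact max_lt one_pos (sub_lt_self _ (by positivity))
  have hn : ∀ x ∈ Vᗮ, ‖h x‖ ≤ θ * ‖x‖ := fun x hv => by
    refine (abs_le_of_sq_le_sq' ?_ (by positivity)).2
    rw [mul_pow, hθ, Real.sq_sqrt (le_max_left _ _), hx, @norm_sub_sq_real, real_inner_smul_right,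
      ← Bs, real_inner_self_eq_norm_sq, norm_smul, mul_pow, Real.norm_eq_abs, sq_abs]
    have a1 : ‖B (B x)‖ ^ 2 ≤ ‖B‖ ^ 2 * ‖B x‖ ^ 2 := by
      rw [← mul_pow]; exact pow_le_pow_left₀ (norm_nonneg _) (B.le_opNorm _) 2
    have a2 : ‖x‖ ^ 2 ≤ (K + 1) ^ 2 * ‖B x‖ ^ 2 := by
      rw [← mul_pow]; exact pow_le_pow_left₀ (norm_nonneg _) (low x hv) 2
    have a3 : c / (K + 1) ^ 2 * ‖x‖ ^ 2 ≤ c * ‖B x‖ ^ 2 := by
      rw [div_mul_eq_mul_div, div_le_iff₀ (by positivity)]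
      nlinarith
    have a4 : c ^ 2 * ‖B (B x)‖ ^ 2 ≤ c * ‖B x‖ ^ 2 := by
      have : c * ‖B‖ ^ 2 ≤ 1 := by nlinarith
      have a5 := mul_le_mul_of_nonneg_right this (mul_nonneg c0.le (sq_nonneg ‖B x‖))
      nlinarith [mul_le_mul_of_nonneg_left a1 (sq_nonneg c)]
    have a6 := mul_le_mul_of_nonneg_right (le_max_right 0 (1 - c / (K + 1) ^ 2)) (sq_nonneg ‖x‖)
    nlinarith
  have hp : ∀ m : ℕ, h ^ m ∈ 𝒞 ∧ ∀ x, (h ^ m) x - P x ∈ Vᗮ ∧ ‖(h ^ m) x - P x‖ ≤ θ ^ m * ‖x‖ := by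
    intro m
    induction m with
    | zero =>
      refine ⟨h1, fun x => ⟨V.sub_starProjection_mem_orthogonal x, ?_⟩⟩
      rw [pow_zero, pow_zero, one_mul, one_apply_eq_self,
        ← Submodule.starProjection_orthogonal_val]
      exact Vᗮ.norm_starProjection_apply_le x
    | succ m ih =>
      have hB' : B ∈ 𝒞 := sub_mem hG (𝒞.smul_mem _ h1)
      refine ⟨by rw [pow_succ']; exact hm _ (sub_mem h1 (𝒞.smul_mem _ (hm _ hB' _ hB'))) _ ih.1,
        fun x => ?_⟩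
      have e : (h ^ (m + 1)) x - P x = h ((h ^ m) x - P x) := by
        rw [pow_succ', mul_apply_eq_comp, map_sub, hx (P x), BV _ (V.starProjection_apply_mem x)]
        simp
      rw [e]
      refine ⟨sub_mem (ih.2 x).1 (Submodule.smul_mem _ _ (Bo _)), (hn _ (ih.2 x).1).trans ?_⟩
      rw [pow_succ', mul_assoc]
      exact mul_le_mul_of_nonneg_left (ih.2 x).2 (Real.sqrt_nonneg _)
  refine hc.mem_of_tendsto (f := fun m => h ^ m) (b := atTop) ?_ (.of_forall fun m => (hp m).1)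
  rw [tendsto_iff_norm_sub_tendsto_zero]
  exact squeeze_zero (fun _ => norm_nonneg _) (fun m => ContinuousLinearMap.opNorm_le_bound _
    (by positivity) fun x => ((hp m).2 x).2)
    (tendsto_pow_atTop_nhds_zero_of_lt_one (Real.sqrt_nonneg _) θ1)

/-- **Complex rank one operators.** -/
theorem approx {𝒜 : Submodule ℝ (H →L[ℝ] H)} (hm : ∀ a ∈ 𝒜, ∀ b ∈ 𝒜, a * b ∈ 𝒜)
    (hst : ∀ a ∈ 𝒜, ∃ b ∈ 𝒜, ∀ x y, ⟪a x, y⟫_ℝ = ⟪x, b y⟫_ℝ) (h1 : 1 ∈ 𝒜)
    {J G : H →L[ℝ] H} (hJ : J ∈ 𝒜) (hJs : ∀ x y, ⟪J x, y⟫_ℝ = -⟪x, J y⟫_ℝ) (hG : G ∈ 𝒜)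
    (hGc : IsCompactOperator G) (hGs : ∀ x y, ⟪G x, y⟫_ℝ = ⟪x, G y⟫_ℝ) (hGi : Injective G)
    (hJG : ∀ x, J (G x) = G (J x)) {ψ : H} (hψ : J (J ψ) = -ψ)
    (hS : ∀ S : H →L[ℝ] H, (∀ a ∈ 𝒜, S * a = a * S) → ∃ r s : ℝ, S ψ = r • ψ + s • J ψ)
    {δ : ℝ} (hδ : 0 < δ) : ∃ a ∈ 𝒜, ‖a - rk J ψ‖ ≤ δ := by
  rcases eq_or_ne ψ 0 with rfl | h0
  · exact ⟨0, zero_mem _, by simpa [rk] using hδ.le⟩
  have n0 : ⟪ψ, ψ⟫_ℝ ≠ 0 := fun h => h0 (inner_self_eq_zero.1 h)
  have o1 : ⟪J ψ, ψ⟫_ℝ = 0 := by linarith [hJs ψ ψ, real_inner_comm ψ (J ψ)]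
  have o2 : ⟪J ψ, J ψ⟫_ℝ = ⟪ψ, ψ⟫_ℝ := by rw [hJs, hψ, inner_neg_right, neg_neg]
  have hT : ∀ S : H →L[ℝ] H, (∀ a ∈ 𝒜, S * a = a * S) → S * rk J ψ = rk J ψ * S := by
    intro S h
    have ad : ∀ x y, ⟪x, S y⟫_ℝ = ⟪ContinuousLinearMap.adjoint S x, y⟫_ℝ := fun x y =>
      (ContinuousLinearMap.adjoint_inner_left S y x).symm
    have ap : ∀ a ∈ 𝒜, ∀ x, S (a x) = a (S x) := fun a ha x => DFunLike.congr_fun (h a ha) x
    have h' : ∀ a ∈ 𝒜, ContinuousLinearMap.adjoint S * a = a * ContinuousLinearMap.adjoint S := by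
      intro a ha
      obtain ⟨b, hb, e⟩ := hst a ha
      ext x
      refine ext_inner_right ℝ fun y => ?_
      rw [mul_apply_eq_comp, mul_apply_eq_comp, ← ad, e, e, ← ad, ap b hb]
    obtain ⟨r, s, e⟩ := hS S h
    obtain ⟨r', s', e'⟩ := hS _ h'
    have j : S (J ψ) = r • J ψ - s • ψ := by
      rw [ap J hJ, e, map_add, map_smul, map_smul, hψ, smul_neg, sub_eq_add_neg]
    have j' : ContinuousLinearMap.adjoint S (J ψ) = r' • J ψ - s' • ψ := by
      rw [← mul_apply_eq_comp, h' J hJ, mul_apply_eq_comp, e', map_add, map_smul, map_smul, hψ,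
        smul_neg, sub_eq_add_neg]
    have a1 := ad ψ ψ
    have a2 := ad (J ψ) ψ
    rw [e, e'] at a1
    rw [e, j'] at a2
    simp only [inner_add_left, inner_add_right, inner_sub_left, real_inner_smul_left,
      real_inner_smul_right, o1, o2, real_inner_comm (J ψ) ψ, mul_zero, add_zero, zero_add,
      zero_sub] at a1 a2
    obtain rfl : r = r' := mul_right_cancel₀ n0 a1
    obtain rfl : s = -s' := mul_right_cancel₀ n0 (by rw [a2, neg_mul])
    ext x
    simp only [mul_apply_eq_comp, rk_apply, map_add, map_smul, ad, e, e', j, j', inner_add_left,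
      inner_sub_left, real_inner_smul_left]
    module
  let 𝒞 := 𝒜.topologicalClosure
  have hc : IsClosed (𝒞 : Set (H →L[ℝ] H)) := 𝒜.isClosed_topologicalClosure
  have hm' : ∀ a ∈ 𝒞, ∀ b ∈ 𝒞, a * b ∈ 𝒞 := fun a ha b hb =>
    map_mem_closure₂ (f := fun a b : H →L[ℝ] H => a * b) continuous_mul ha hb hm
  have hst' : ∀ a ∈ 𝒞, ContinuousLinearMap.adjoint a ∈ 𝒞 := fun a ha =>
    map_mem_closure (f := fun a : H →L[ℝ] H => ContinuousLinearMap.adjoint a) (by fun_prop) ha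
      fun a ha => by
        obtain ⟨b, hb, e⟩ := hst a ha
        exact mem_of_eq_of_mem ((ContinuousLinearMap.eq_adjoint_iff b a).2 fun x y => by
          rw [real_inner_comm, ← e, real_inner_comm]).symm hb
  obtain ⟨μ, v, hv, hvψ⟩ : ∃ μ : ℝ, ∃ v, G v = μ • v ∧ ⟪v, ψ⟫_ℝ ≠ 0 := by
    by_contra hn
    push Not at hn
    refine h0 (Submodule.mem_bot ℝ |>.1 ?_)
    rw [← ContinuousLinearMap.orthogonalComplement_iSup_eigenspaces_eq_bot hGc hGs,
      ← Submodule.iInf_orthogonal, Submodule.mem_iInf]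
    exact fun μ v hv => hn μ v (End.mem_eigenspace_iff.1 hv)
  have hμ : μ ≠ 0 := by
    rintro rfl
    rw [hGi (a₁ := v) (a₂ := 0) (by rw [hv, zero_smul, map_zero]), inner_zero_left] at hvψ
    exact hvψ rfl
  let V := End.eigenspace (G : End ℝ H) μ
  have : FiniteDimensional ℝ V := ContinuousLinearMap.finite_dimensional_eigenspace hGc μ hμ
  have hV : ∀ x, x ∈ V ↔ G x = μ • x := fun x => End.mem_eigenspace_iff
  have hP := proj_mem hc hm' (𝒜.le_topologicalClosure h1) (𝒜.le_topologicalClosure hG) hGc hGs hμ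
    V hV
  set P := V.starProjection with hPd
  have Ps : ∀ x y, ⟪P x, y⟫_ℝ = ⟪x, P y⟫_ℝ := V.inner_starProjection_left_eq_right
  have PP : ∀ x, P (P x) = P x := fun x =>
    Submodule.starProjection_eq_self_iff.2 (V.starProjection_apply_mem x)
  have JV : ∀ x ∈ V, J x ∈ V := fun x hx => (hV _).2 (by rw [← hJG, (hV x).1 hx, map_smul])
  have PJ : ∀ x, P (J x) = J (P x) := fun x => Submodule.eq_starProjection_of_mem_orthogonal
    (JV _ (V.starProjection_apply_mem x)) fun y hy => by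
      rw [← map_sub, real_inner_comm, hJs, real_inner_comm,
        V.sub_starProjection_mem_orthogonal x _ (JV y hy), neg_zero]
  have TP : rk J ψ * P ∈ 𝒞 := Metric.mem_closure_iff.2 fun ε hε => by
    obtain ⟨a, ha, e⟩ := bicomm' hm hst (fun w hw => hw 1 h1) hT V (half_pos (half_pos hε))
    obtain ⟨b, hb, e'⟩ := Metric.mem_closure_iff.1 (hm' a (𝒜.le_topologicalClosure ha) P hP) _
      (half_pos hε)
    refine ⟨b, hb, (dist_triangle _ (a * P) _).trans_lt ?_⟩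
    have : dist (rk J ψ * P) (a * P) ≤ ε / 2 / 2 := by
      rw [dist_comm, dist_eq_norm]
      exact ContinuousLinearMap.opNorm_le_bound _ (by positivity) fun x =>
        (e _ (V.starProjection_apply_mem x)).trans
          (mul_le_mul_of_nonneg_left (V.norm_starProjection_apply_le x) (by positivity))
    linarith
  have t0 : ⟪P ψ, ψ⟫_ℝ ≠ 0 := fun h => hvψ (by
    rw [← PP, Ps, inner_self_eq_zero] at h
    rw [← Submodule.starProjection_eq_self_iff.2 ((hV v).2 hv), Ps, h, inner_zero_right])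
  have q1 : ⟪J ψ, P ψ⟫_ℝ = 0 := by
    have a := hJs (P ψ) (P ψ)
    rw [real_inner_comm (J _)] at a
    rw [← PP, ← Ps, PJ]; linarith
  have q2 : ⟪ψ, P (J ψ)⟫_ℝ = 0 := by rw [← Ps, real_inner_comm, q1]
  have q3 : ⟪J ψ, P (J ψ)⟫_ℝ = ⟪P ψ, ψ⟫_ℝ := by
    rw [hJs, ← PJ, hψ, map_neg, inner_neg_right, neg_neg, Ps]
  have ad : ContinuousLinearMap.adjoint (rk J ψ * P) = P * rk J ψ :=
    ((ContinuousLinearMap.eq_adjoint_iff _ _).2 fun x y => by
      simp only [mul_apply_eq_comp, rk_apply, map_add, map_smul, inner_add_left, inner_add_right,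
        real_inner_smul_left, real_inner_smul_right, Ps, real_inner_comm x]
      ring).symm
  have fin : rk J ψ = (⟪P ψ, ψ⟫_ℝ)⁻¹ • (rk J ψ * P * (P * rk J ψ)) := by
    ext x
    simp only [smul_apply, mul_apply_eq_comp, PP, rk_apply, map_add, map_smul, q1, q2, q3,
      ← Ps ψ ψ, zero_smul, add_zero, zero_add, smul_add, smul_smul]
    congr 2 <;> field_simp
  obtain ⟨b, hb, e⟩ := Metric.mem_closure_iff.1 (show rk J ψ ∈ 𝒞 from
    fin ▸ 𝒞.smul_mem _ (hm' _ TP _ (ad ▸ hst' _ TP))) δ hδ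
  exact ⟨b, hb, by rw [← dist_eq_norm, dist_comm]; exact e.le⟩

end Crest.Agent.X212.Im23
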