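import Crest.Agent.X212.Im23.Wd
import Crest.Agent.X212.Cgr76.Y

/-!
# Row 212, CRIT-IM (helper23): the Hessian of the weight zero invariants where the spinor vanishes
-/

set_option autoImplicit false
set_option linter.unusedSectionVars false
noncomputable section
open scoped Manifold ContDiff Topology InnerProductSpace
open MeasureTheory Set Function Filter

namespace Crest.Agent.X212.Im23
open An Sob92 Dgr80 Nd18 Crt72 Cgr76
open Wrd81 (wd RH)
open ContinuousLinearMap (adjoint)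

variable {E3 : Type} [NormedAddCommGroup E3] [NormedSpace ℝ E3] [FiniteDimensional ℝ E3]
  [MeasurableSpace E3] [BorelSpace E3]
  {H3 : Type} [TopologicalSpace H3] {I3 : ModelWithCorners ℝ E3 H3} [I3.Boundaryless]
  {Y : Type} [TopologicalSpace Y] [ChartedSpace H3 Y] [IsManifold I3 ∞ Y] [T2Space Y]
  [MeasurableSpace Y] [BorelSpace Y] [SecondCountableTopology Y] [CompactSpace Y]
  {κ : Type} [Fintype κ] {lam : Type} [Fintype lam] {D : YD I3 Y κ lam} {β : YC Y κ lam}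

/-- the field of a letter -/
def fld (F : Fr I3 Y κ) (β : YC Y κ lam) : YL Y → Y → En (Fin β.m.N)
  | .mul f => fun y => f y • 1
  | .cl none => β.m.ρ none
  | .cl (some g) => fun y => ∑ a, F.D a g y • β.m.ρ (some a) y
  | .im => fun _ => β.m.J
  | .G => 0

/-- the sign of the adjoint of a letter -/
def sgn : YL Y → ℝ
  | .mul _ => 1
  | .G => 1
  | _ => -1

theorem ylt_eq (F : Fr I3 Y κ) (t : YL Y) : t = .G ∨ ∀ β : YC Y κ lam,
    ylt F β t = .op (fld F β t) := by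
  rcases t with _ | (_ | _) | _ | _ <;> first | exact .inr fun _ => rfl | exact .inl rfl

theorem sm_fld (hβ : D.Adm β) {t : YL Y} (ht : t.OK I3) : Sm I3 (fld D.F β t) := by
  rcases t with f | (_ | g) | _ | _
  · exact ContMDiff.smul ht contMDiff_const
  · exact (mok hβ).sρ none
  · exact contMDiff_finsetSum fun a _ => (D.F.sm_D (ht g rfl) a).smul ((mok hβ).sρ _)
  all_goals exact contMDiff_const

theorem fld_adj (hβ : D.Adm β) (t : YL Y) (y : Y) (v w : β.m.V) :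
    ⟪fld D.F β t y v, w⟫_ℝ = sgn t * ⟪v, fld D.F β t y w⟫_ℝ := by
  rcases t with f | (_ | g) | _ | _ <;>
    simp [fld, sgn, real_inner_smul_left, real_inner_smul_right, (mok hβ).ρsk _ y v w,
      (mok hβ).Jsk v w, sum_inner, inner_sum]

theorem smL (hβ : D.Adm β) {u : List (YL Y)} (hu : ∀ t ∈ u, t.OK I3) :
    ∀ t ∈ u.map (ylt D.F β), SmL I3 t := List.forall_mem_map.2 fun t ht => by
  rcases ylt_eq (lam := lam) D.F t with rfl | e
  · trivial
  · rw [e]; exact sm_fld hβ (hu t ht)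

theorem tame (h : HY D) : ∃ C, D.F.Tame C := Cht98.exists_tame D.F (by rw [h.dim]; norm_num)

theorem rhY (h : HY D) (hβ : D.Adm β) : RH D.F (cn β) :=
  Wrd81.rh_of_tame (tame h).choose_spec (fun a => Cb_of_compact (sm_cn hβ a)) (skw_cn hβ) (P_cn hβ)

variable (D β) in
/-- words on `L²` -/
def WY (u : List (YL Y)) : L2 Y β.m.V D.F →L[ℝ] L2 Y β.m.V D.F :=
  wo D.F (cn β) (u.map (ylt D.F β))

variable (D β) in
/-- the Hessian on `L²` -/
def BY (u v : List (YL Y)) : L2 Y β.m.V D.F →L[ℝ] L2 Y β.m.V D.F :=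
  adjoint (WY D β u) * WY D β v + adjoint (WY D β v) * WY D β u

variable (β) in
/-- change of the spinor -/
abbrev wp (Φ : Y → β.m.V) : YC Y κ lam := ⟨β.m, β.W, Φ, β.z⟩

theorem sm_nr {V : Type} [NormedAddCommGroup V] [InnerProductSpace ℝ V] :
    ContDiff ℝ ∞ fun v : V => (√(1 + ‖v‖ ^ 2))⁻¹ :=
  ((contDiff_const.add (contDiff_norm_sq ℝ)).sqrt fun _ => by positivity).inv
    fun _ => by positivity

variable (h : HY D) (hβ : D.Adm β) {u v : List (YL Y)}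
include h hβ

theorem hom {Φ Φ' : Y → β.m.V} {s : ℝ} (e : nP (wp β Φ') = s • nP (wp β Φ)) :
    (∀ u, yw D.F (wp β Φ') u = s • yw D.F (wp β Φ) u) ∧
    (YF.sw D.F .one u v).gA (wp β Φ') = (s * s) • (YF.sw D.F .one u v).gA (wp β Φ) := by
  have R := rhY h hβ
  have a : ∀ u, yw D.F (wp β Φ') u = s • yw D.F (wp β Φ) u := fun u =>
    (congrArg (wd (sl D.F (cn β)) · (u.map (ylt D.F β))) e).trans (wd_smul R.bmp R.mc s _ _)
  have b : ∀ u v, ywA D.F (wp β Φ') u (yw D.F (wp β Φ') v) =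
      (s * s) • ywA D.F (wp β Φ) u (yw D.F (wp β Φ) v) := fun u v =>
    (congrArg₂ (gc D.F (cn β) opL · (u.map (ylt D.F β)) ·) e (a v)).trans
      (gc_smul R.bmp R.mc s _ _ _)
  exact ⟨a, funext fun y => (congrArg₂ (· + ·) (congrFun (b u v) y) (congrFun (b v u) y)).trans
    (smul_add (s * s) _ _).symm⟩

theorem g_zero (h0 : ∀ y, β.Φ y = 0) (y : Y) :
    (YF.sw D.F .one u v).gA β y = 0 ∧ (YF.sw D.F .one u v).gP β y = 0 := by
  have R := rhY h hβ
  obtain ⟨a, b⟩ := hom h hβ (u := u) (v := v) (Φ := β.Φ) (Φ' := β.Φ) (s := 0)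
    (funext fun y => by simp [nP, h0])
  have c : ∀ u v, ywP D.F β u (yw D.F β v) y = 0 := fun u v => by
    rw [ywP, show yw D.F β v = _ from a v, bk_smul R.bmp R.mc]; simp [dn]
  exact ⟨(congrFun b y).trans (by simp), (congrArg₂ (· + ·) (c u v) (c v u)).trans (add_zero _)⟩

theorem T_zero (hV : AdmV D) (h0 : ∀ y, β.Φ y = 0) {k : ℕ} (hk : 4 ≤ k) {T : CC D β k → CC D β k}
    (hT : RpT D β (YF.sw D.F .one u v) k k T) (y : SP D β) (hy : y.2 = 0) : T (pt D β k y) = 0 := by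
  have e : ∀ x, (cf y).Φ x = 0 := fun x => show β.Φ x + y.2.1 x = 0 by simp [h0, hy]
  have g := g_zero h (hV β hβ y) (u := u) (v := v) e
  refine cc_ext h hk (fun x a => ?_) fun x => ?_
  · rw [(hT.2 _ x).1.trans ((congrArg _ (g x).1).trans (map_zero _))]; simp [val_zero]
  · rw [(hT.2 _ x).2.trans ((congrArg _ (g x).2).trans (map_zero _))]; simp [val_zero]

variable (hu : ∀ t ∈ u, t.OK I3) (hv : ∀ t ∈ v, t.OK I3)
include hu hv

theorem pair {Φ χ : Y → β.m.V} (hn : Sm I3 (nP (wp β Φ))) (hd : Sm I3 (dn (wp β Φ) χ)) :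
    ∫ y, ⟪(YF.sw D.F .one u v).gP (wp β Φ) y, χ y⟫_ℝ ∂D.F.μ =
      ⟪BY D β u v (th D.F hn), th D.F hd⟫_ℝ := by
  have R := rhY h hβ
  have e : ∀ {u v : List (YL Y)} (hu : ∀ t ∈ u, t.OK I3) (hv : ∀ t ∈ v, t.OK I3),
      (adjoint (WY D β u) * WY D β v) (th D.F hn) = th D.F (sm_bk (F := D.F) (A := cn β)
        (smL hβ hu) (sm_wd (F := D.F) (A := cn β) hn (smL hβ hv))) := fun hu hv => by
    rw [mul_apply_eq_comp, WY, WY, wo_th R hn (smL hβ hv), wo_adj R (smL hβ hu)]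
  rw [BY, add_apply, e hu hv, e hv hu, th, th, ← map_add, th, Pre.inner_toH]
  refine integral_congr_ae (.of_forall fun y => ?_)
  have : ∀ l l' : Y → β.m.V, ⟪dn (wp β Φ) l y + dn (wp β Φ) l' y, χ y⟫_ℝ =
      ⟪l y + l' y, dn (wp β Φ) χ y⟫_ℝ := fun l l' => by
    simp only [dn, inner_add_left, inner_sub_left, inner_sub_right, real_inner_smul_left,
      real_inner_smul_right, real_inner_comm (Φ y)]
    ring
  exact this _ _

theorem deriv_pair {φ χ : Y → β.m.V} (hφ : Sm I3 φ) (hχ : Sm I3 χ) :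
    HasDerivAt (fun ε : ℝ => ∫ y, ⟪(YF.sw D.F .one u v).gP (wp β (ε • φ)) y, χ y⟫_ℝ ∂D.F.μ)
      ⟪BY D β u v (th D.F hφ), th D.F hχ⟫_ℝ 0 := by
  have s0 : ∀ ε : ℝ, Sm I3 (ε • φ) := fun ε => Wrd81.sm_smul (f := fun _ => ε) contMDiff_const hφ
  have s1 : ∀ ε : ℝ, Sm I3 fun y => (√(1 + ‖(ε • φ) y‖ ^ 2))⁻¹ :=
    fun ε => sm_nr.contMDiff.comp (s0 ε)
  have c0 : Continuous fun z : ℝ × Y => z.1 • φ z.2 := by have := hφ.continuous; fun_prop
  have c1 := sm_nr.continuous.comp c0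
  have sa := fun ε => (s1 ε).smul hφ
  have sn : ∀ ε : ℝ, Sm I3 (nP (wp β (ε • φ))) := fun ε => (s1 ε).smul (s0 ε)
  have sb : ∀ ε : ℝ, Sm I3 (dn (wp β (ε • φ)) χ) := fun ε => ((s1 ε).smul hχ).sub
    ((((s1 ε).pow 3).mul (Wrd81.sm_inner (s0 ε) hχ)).smul (s0 ε))
  have ca := cont_th (F := D.F) sa (c1.smul (hφ.continuous.comp continuous_snd))
  have cb := cont_th (F := D.F) (V := β.m.V) (f := fun ε => dn (wp β (ε • φ)) χ) sb ((c1.smul (hχ.continuous.comp continuous_snd)).sub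
    (((c1.pow 3).mul (c0.inner (𝕜 := ℝ) (hχ.continuous.comp continuous_snd))).smul c0))
  have cc := ((BY D β u v).continuous.continuousAt.comp ca).inner (𝕜 := ℝ) cb
  have e : ∀ ε : ℝ, ∫ y, ⟪(YF.sw D.F .one u v).gP (wp β (ε • φ)) y, χ y⟫_ℝ ∂D.F.μ =
      ε * ⟪BY D β u v (th D.F (sa ε)), th D.F (sb ε)⟫_ℝ := fun ε => by
    rw [pair h hβ hu hv (sn ε) (sb ε), ← real_inner_smul_left, ← map_smul]
    congr 2
    rw [th, th, ← map_smul]
    exact congrArg _ (Subtype.ext (funext fun y => smul_comm (_ : ℝ) ε (φ y)))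
  rw [funext e, hasDerivAt_iff_tendsto_slope_zero,
    ← th_congr (sa 0) hφ (funext fun y => by simp),
    ← th_congr (sb 0) hχ (funext fun y => by simp [dn])]
  refine (cc.tendsto.mono_left nhdsWithin_le_nhds).congr' ?_
  filter_upwards [self_mem_nhdsWithin] with ε hε
  rw [zero_add ε, zero_mul, sub_zero, smul_eq_mul, inv_mul_cancel_left₀ hε]
  rfl

/-- **The Hessian.** -/
theorem hess (hV : AdmV D) (h0 : ∀ y, β.Φ y = 0) {k : ℕ} (hk : 4 ≤ k) {T : CC D β k → CC D β k}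
    (hT : RpT D β (YF.sw D.F .one u v) k k T) (z : CC D β k) : (fderiv ℝ T 0 z).1 = 0 ∧
      D.F.incl k 0 _ (fderiv ℝ T 0 z).2 = D.F.mulH 0 _ (pv D β) (pv D β)
        (BY D β u v (fg D.F.toPre 0 _ (D.F.incl k 0 _ z.2))) := by
  have dT : ∀ y : SP D β, HasDerivAt (fun ε : ℝ => T (pt D β k (ε • y)))
      (fderiv ℝ T 0 (pt D β k y)) 0 := fun y => by
    simpa [HasLineDerivAt] using (hT.1.differentiable (by simp) 0).hasFDerivAt.hasLineDerivAt
      (pt D β k y)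
  refine (dense_pt (D := D) (β := β)).induction_on z (IsClosed.and
    (isClosed_eq (by fun_prop) (by fun_prop)) (isClosed_eq (by fun_prop) (by fun_prop))) ?_
  rintro ⟨α, φ⟩
  have a1 : fderiv ℝ T 0 (pt D β k (α, 0)) = 0 := (dT _).unique (by
    have : ∀ ε : ℝ, T (pt D β k (ε • (α, 0))) = 0 := fun ε =>
      T_zero h hβ hV h0 hk hT _ (smul_zero ε)
    simpa only [this] using hasDerivAt_const (0 : ℝ) (0 : CC D β k))
  have cg := fun ε : ℝ => (YF.sw D.F .one u v).congr (wp β (ε • φ.1))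
    (W := (cf (ε • ((0, φ) : SP D β))).W) (Φ := (cf (ε • ((0, φ) : SP D β))).Φ)
    (funext₂ fun a x => by simp [cf, vy, vr, Md.addC]) (funext fun x => by simp [cf, vy, vr, h0])
  have v1 : ∀ (ε : ℝ) y, D.F.val k _ (T (pt D β k (ε • (0, φ)))).1 y =
      pc D β y ((YF.sw D.F .one u v).gA (wp β (ε • φ.1)) y) := fun ε y =>
    (hT.2 _ y).1.trans (congrArg _ (congrFun (cg ε).1 y))
  have v2 : ∀ (ε : ℝ) y, D.F.val k _ (T (pt D β k (ε • (0, φ)))).2 y =
      pv D β y ((YF.sw D.F .one u v).gP (wp β (ε • φ.1)) y) := fun ε y =>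
    (hT.2 _ y).2.trans (congrArg _ (congrFun (cg ε).2 y))
  have a2 : (fderiv ℝ T 0 (pt D β k (0, φ))).1 = 0 := by
    have d1 : HasDerivAt (fun ε : ℝ => (T (pt D β k (ε • (0, φ)))).1)
      (fderiv ℝ T 0 (pt D β k (0, φ))).1 0 :=
      (dT (0, φ)).fst
    have d2 := d1.scomp_of_eq (0 : ℝ) (hasDerivAt_neg (0 : ℝ)) neg_zero.symm
    have e : (fun ε : ℝ => (T (pt D β k (ε • (0, φ)))).1) ∘ Neg.neg =
        fun ε : ℝ => (T (pt D β k (ε • (0, φ)))).1 := funext fun ε =>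
      val_injective (hS h) hk (funext fun y => by
        rw [comp_apply, v1, v1, (hom h hβ (Φ := ε • φ.1) (Φ' := (-ε) • φ.1) (s := -1)
          (funext fun y => by simp [nP])).2]
        simp)
    rw [e] at d2
    have := d1.unique d2
    rwa [neg_one_smul, eq_neg_iff_add_eq_zero, ← two_smul ℝ, smul_eq_zero_iff_right two_ne_zero]
      at this
  rw [show fderiv ℝ T 0 (pt D β k (α, φ)) = fderiv ℝ T 0 (pt D β k (0, φ)) by
    rw [show (α, φ) = (α, 0) + (0, φ) by simp, map_add, map_add, a1, zero_add]]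
  refine ⟨a2, ?_⟩
  have pm : Maps (triv Y β.m.V) (pv D β) (pv D β) := Maps.of_left (pv_pv h.ok hβ)
  refine (D.F.dense_toH 0 _).eq_of_inner_left ℝ fun χ => ?_
  have d : HasDerivAt _ ⟪D.F.toH 0 _ χ, D.F.incl k 0 _ (fderiv ℝ T 0 (pt D β k (0, φ))).2⟫_ℝ _ :=
    (innerSL ℝ (D.F.toH 0 _ χ) ∘L D.F.incl k 0 _ ∘L
      ContinuousLinearMap.snd ℝ _ _).hasFDerivAt.comp_hasDerivAt (0 : ℝ) (dT (0, φ))
  have e : ∀ ε : ℝ, ⟪D.F.toH 0 _ χ, D.F.incl k 0 _ (T (pt D β k (ε • (0, φ)))).2⟫_ℝ =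
      ∫ y, ⟪(YF.sw D.F .one u v).gP (wp β (ε • φ.1)) y, χ.1 y⟫_ℝ ∂D.F.μ := fun ε => by
    rw [real_inner_comm, ← incl_toH k.zero_le, inner_incl (hS h) hk hk, val_toH (hS h) hk]
    exact integral_congr_ae (.of_forall fun y => by
      simp only [v2]
      rw [pv_eq, Std94.pp_sym (ok3 h.ok) (Std94.pmx (mok hβ) y), ← pv_eq, χ.2.2.2])
  rw [real_inner_comm, (d.congr_of_eventuallyEq (.of_forall fun ε => (e ε).symm)).unique
    (deriv_pair h hβ hu hv φ.2.1 χ.2.1), mul_adj (ε := 1) (T' := fun _ => .id ℝ _) (sm_pv h.ok hβ)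
    contMDiff_const pm (Maps.triv _) fun y a b _ hb => by
      rw [pv_eq, Std94.pp_sym (ok3 h.ok) (Std94.pmx (mok hβ) y), ← pv_eq, hb]; simp,
    one_mul, mul_toH contMDiff_const]
  exact congrArg (fun x => ⟪BY D β u v x, _⟫_ℝ)
    ((congrArg _ (incl_toH k.zero_le φ)).trans (RepT_toH rep_fg φ)).symm

end Crest.Agent.X212.Im23
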