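import Crest.Agent.X212.Im23.Hes
import Crest.Agent.X212.Lin97.Emb

/-!
# Row 212, CRIT-IM (helper23): the spinor part of the total space
-/

set_option autoImplicit false
set_option linter.unusedSectionVars false
noncomputable section
open scoped Manifold ContDiff Topology InnerProductSpace
open MeasureTheory Set Function Filter

namespace Crest.Agent.X212.Im23
open An Sob92 Dgr80 Nd18 Crt72 Cgr76
open Map77 (fp ext2 maps_s2 maps_i2)

variable {E3 : Type} [NormedAddCommGroup E3] [NormedSpace ℝ E3] [FiniteDimensional ℝ E3]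
  [MeasurableSpace E3] [BorelSpace E3]
  {H3 : Type} [TopologicalSpace H3] {I3 : ModelWithCorners ℝ E3 H3} [I3.Boundaryless]
  {Y : Type} [TopologicalSpace Y] [ChartedSpace H3 Y] [IsManifold I3 ∞ Y] [T2Space Y]
  [MeasurableSpace Y] [BorelSpace Y] [SecondCountableTopology Y] [CompactSpace Y]
  {κ : Type} [Fintype κ] {lam : Type} [Fintype lam] {D : YD I3 Y κ lam} {β : YC Y κ lam}

variable (D β) in
/-- the spinor part -/
def rr : XX D β 0 →L[ℝ] L2 Y β.m.V D.F := D.F.mulH 0 _ _ fun _ => fp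

variable (D β) in
/-- its adjoint -/
def ll : L2 Y β.m.V D.F →L[ℝ] XX D β 0 := D.F.mulH 0 _ _ fun y => eP κ _ ∘L pv D β y

theorem isHs_sum {Bc Bw B2 : Type} {Q : GM Bc Bw B2} {o : Q.X} {A : Bw → Q.C o →L[ℝ] Q.E o}
    {K : Bw → Q.X₀ o →L[ℝ] Q.X₀ o} (h : ∀ j, Q.IsHs o (A j) (K j)) (S : Finset Bw) (c : Bw → ℝ) :
    Q.IsHs o (∑ j ∈ S, c j • A j) (∑ j ∈ S, c j • K j) := fun z => by
  simp only [sum_apply, smul_apply, h _ z, ← map_smul, ← map_sum]
  congr 1
  ext <;> simp [Prod.fst_sum, Prod.snd_sum]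

variable (h : HY D) (hβ : D.Adm β)
include h hβ

theorem cbl : D.F.Cb fun y => eP κ _ ∘L pv D β y :=
  Cb_of_compact (contMDiff_const.clm_comp (sm_pv h.ok hβ))

theorem mpl : Maps (triv Y β.m.V) (ph D β) fun y => eP κ _ ∘L pv D β y := fun y v _ =>
  maps_i2 y _ (pv_pv h.ok hβ y v)

theorem ad_lr (x : L2 Y β.m.V D.F) (y : XX D β 0) : ⟪ll D β x, y⟫_ℝ = ⟪x, rr D β y⟫_ℝ :=
  (mul_adj (ε := 1) (cbl h hβ).choose_spec.1 contMDiff_const (mpl h hβ) (Maps.triv _)
    (fun z v w _ hw => by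
      have : pv D β z (fp w) = fp w := maps_s2 z w hw
      rw [one_mul, ← this, pv_eq, ← Std94.pp_sym (ok3 h.ok) (Std94.pmx (mok hβ) z), Map77.inner2]
      simp [eP]) x y).trans (one_mul _)

theorem lrl (x : L2 Y β.m.V D.F) : ll D β (rr D β (ll D β x)) = ll D β x := by
  rw [ll, rr, mulH_mulH (cbl h hβ) (mpl h hβ) (Cb_const _) (Maps.triv _), mulH_mulH
    (Cb_comp (Cb_const _) (cbl h hβ)) (Maps.triv _) (cbl h hβ) (mpl h hβ), mulH_congr]
  exact fun y v _ => by simp [eP, pv_pv h.ok hβ]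

theorem xX_eq (j : ℕ) (x : XX D β 0) : xX D β (D.F.val j β.m.pg 0) 0 x =
    ll D β (D.F.mulH 0 _ _ (fun _ => β.m.J) (rr D β x)) := by
  rw [ll, rr, mulH_mulH (Cb_const _) (Maps.triv _) (Cb_const _) (Maps.triv _), mulH_mulH
    (Cb_const _) (Maps.triv _) (cbl h hβ) (mpl h hβ), xX, mulH_congr]
  exact fun y v hv => ext2 (PiLp.ext fun a => by simp [eP, val_zero, onv, xa, ← Wz78.adcL_apply])
    (by simp [eP, val_zero, xs, pv_J hβ (maps_s2 y v hv)])

/-- the Hessian of a weight zero invariant at a point where the spinor vanishes -/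
theorem isHs (hV : AdmV D) (h0 : ∀ y, β.Φ y = 0) {j : Bw D} (hj : Sm1 D (.sw j)) {k : ℕ}
    (hk : 7 ≤ k) (z : CC D β (k + 1) × GG D β (k + 1)) :
    ll D β (BY D β j.1.1 j.1.2 (rr D β (D.F.incl 1 0 _ (D.F.incl (k + 1) 1 _
      (emb D β (1 / 2) _ z))))) = D.F.incl k 0 _ (emb D β 2 k (fderiv ℝ (fun v => iC D β (k + 1) k
        (mT D β (yf D (.sw j)) (k + 1) (k + 1) v)) 0 z.1, 0)) := by
  have hT : RpT D β _ _ _ (mT D β (yf D (.sw j)) (k + 1) (k + 1)) :=
    Classical.epsilon_spec (hj.T β hβ k hk)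
  obtain ⟨a, b⟩ := hess h hβ j.2.1 j.2.2 hV h0 (by omega) hT z.1
  have e : fderiv ℝ (fun v => iC D β (k + 1) k (mT D β (yf D (.sw j)) (k + 1) (k + 1) v)) 0 = _ :=
    ((iC D β (k + 1) k).hasFDerivAt.comp 0 (hT.1.differentiable (by simp) 0).hasFDerivAt).fderiv
  have r : ∀ c ≠ 0, ∀ w, rr D β (emb D β c 0 w) = fg D.F.toPre 0 _ w.1.2 := fun c hc w =>
    (DFunLike.congr_fun ((rep_mulH (Cb_const _) (Maps.triv _)).unique
      (RepT_comp rep_fg Lin97.rep_rP)) _).trans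
      (congrArg (fun w => fg D.F.toPre 0 _ w.1.2) (Lin97.inv_emb hc w))
  rw [e, incl_incl (by omega) (by omega), Lin97.incl_emb k.succ.zero_le, Lin97.incl_emb k.zero_le,
    r _ (by norm_num), Lin97.emb_apply]
  simp only [iC, ContinuousLinearMap.comp_apply, ContinuousLinearMap.coe_prodMap', Prod.map_fst,
    Prod.map_snd, a, map_zero, smul_zero, zero_add, add_zero, incl_incl k.le_succ k.zero_le, b]
  exact (mulH_mulH (Cb_of_compact (sm_pv h.ok hβ)) (Maps.of_left (pv_pv h.ok hβ)) (Cb_const _)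
    Lin97.maps_eP _).symm

end Crest.Agent.X212.Im23
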